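import Crest.Agent.R339.B.Defs

/-! # Row 339, part B: the filter of admissible limits -/

set_option autoImplicit false

namespace Crest.Agent.R339.B

open Filter Topology

theorem adm_fst : Tendsto Prod.fst adm atTop := tendsto_comap.mono_left inf_le_left

theorem adm_mul : Tendsto (fun x : ℕ × ℝ => x.2 * (x.1 : ℝ)) adm (𝓝 1) :=
  tendsto_comap.mono_left inf_le_right

theorem tendsto_adm {α : Type*} {l : Filter α} {f : α → ℕ × ℝ}
    (h1 : Tendsto (fun x => (f x).1) l atTop)
    (h2 : Tendsto (fun x => (f x).2 * ((f x).1 : ℝ)) l (𝓝 1)) : Tendsto f l adm :=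
  tendsto_inf.2 ⟨tendsto_comap_iff.2 h1, tendsto_comap_iff.2 h2⟩

instance : adm.IsCountablyGenerated := by unfold adm; infer_instance

theorem adm_one_le : ∀ᶠ x in adm, 1 ≤ x.1 := adm_fst.eventually (eventually_ge_atTop 1)

theorem adm_eps : Tendsto Prod.snd adm (𝓝 0) := by
  have h1 : Tendsto (fun x : ℕ × ℝ => ((x.1 : ℝ))⁻¹) adm (𝓝 0) :=
    tendsto_inv_atTop_zero.comp (tendsto_natCast_atTop_atTop.comp adm_fst)
  have h2 := adm_mul.mul h1
  rw [mul_zero] at h2
  refine h2.congr' ?_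
  filter_upwards [adm_one_le] with x hx
  have : (x.1 : ℝ) ≠ 0 := by positivity
  field_simp

theorem adm_nonneg : ∀ᶠ x in adm, 0 ≤ x.2 := by
  filter_upwards [adm_mul.eventually (lt_mem_nhds (zero_lt_one' ℝ))] with x hx
  by_contra h
  have : x.2 * (x.1 : ℝ) ≤ 0 := mul_nonpos_of_nonpos_of_nonneg (le_of_lt (not_le.1 h)) (by positivity)
  linarith

theorem adm_le_one : ∀ᶠ x in adm, x.2 ≤ 1 :=
  (adm_eps.eventually (gt_mem_nhds (zero_lt_one' ℝ))).mono fun _ h => h.le

theorem adm_succ_mul : Tendsto (fun x : ℕ × ℝ => x.2 * ((x.1 + 1 : ℕ) : ℝ)) adm (𝓝 1) := by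
  have := adm_mul.add adm_eps
  rw [add_zero] at this
  refine this.congr fun x => ?_
  push_cast; ring

theorem adm_succ : Tendsto (fun x : ℕ × ℝ => (x.1 + 1, x.2)) adm adm :=
  tendsto_adm ((tendsto_add_atTop_nat 1).comp adm_fst) adm_succ_mul

theorem adm_shift : Tendsto (fun x : ℕ × ℝ => (x.1 - 1, x.2)) adm adm := by
  refine tendsto_adm ((tendsto_sub_atTop_nat 1).comp adm_fst) ?_
  have := adm_mul.sub adm_eps
  rw [sub_zero] at this
  refine this.congr' ?_
  filter_upwards [adm_one_le] with x hx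
  simp only [Nat.cast_sub hx]
  push_cast; ring

theorem adm_diag : Tendsto (fun n : ℕ => (n, 1 / (n : ℝ))) atTop adm := by
  refine tendsto_adm tendsto_id ?_
  refine tendsto_const_nhds.congr' ?_
  filter_upwards [eventually_ge_atTop 1] with n hn
  have : (n : ℝ) ≠ 0 := by positivity
  field_simp

theorem tendsto_of_succ {E : Type*} {F : ℕ → ℝ → E} {l : Filter E}
    (h : Tendsto (fun x : ℕ × ℝ => F (x.1 + 1) x.2) adm l) :
    Tendsto (fun x : ℕ × ℝ => F x.1 x.2) adm l := by
  refine (h.comp adm_shift).congr' ?_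
  filter_upwards [adm_one_le] with x hx
  simp only [Function.comp, Nat.sub_add_cancel hx]

theorem eventually_of_succ {P : ℕ → ℝ → Prop} (h : ∀ᶠ x in adm, P (x.1 + 1) x.2) :
    ∀ᶠ x in adm, P x.1 x.2 := by
  filter_upwards [adm_shift.eventually h, adm_one_le] with x h1 hx
  simpa only [Nat.sub_add_cancel hx] using h1

end Crest.Agent.R339.B
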