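import Crest.Agent.R339.B.Repr

/-! # Row 339, part B: uniform bound on the generating functional -/

set_option autoImplicit false

namespace Crest.Agent.R339.B

open MeasureTheory ProbabilityTheory Filter Topology Crest.MathPhysics.SpinGlass

variable {p : ℕ}

/-- Plan: index set `Option (Pth p)`; `e none = 1`, `e (some b) = indicator of b`,
`w j none = c j`, `w j (some b) = h j b`, so `c j + h j x = ∑ o, w j o * e o x`
(`Fintype.sum_option`).  `Finset.prod_univ_sum` expands the product into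
`∑ o : Fin N → Option (Pth p), (∏ j, w j (o j)) * ∏ j, e (o j) (a j)`; `mm` is linear (unfold,
`Finset.sum_comm`); `∏ j, e (o j) (a j) = (∏ k, D' k ..) * ∏ k, D k ..` with
`D' k σ = ∏ j, (match o j with | none => 1 | some b => if σ j = b.1 k then 1 else 0)`, so
`mm_prod_bound` applies; finally `Finset.prod_univ_sum` again for the norms. -/
theorem mm_tensor_bound (γ β : Fin p → ℝ) (N : ℕ) {ε : ℝ} (hε : 0 ≤ ε) (c : Fin N → ℂ)
    (h : Fin N → Pth p → ℂ) :
    ‖mm γ β N ε fun a => ∏ j, (c j + h j (a j))‖ ≤ ∏ j, (‖c j‖ + ∑ b, ‖h j b‖) := by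
  classical
  set w : Fin N → Option (Pth p) → ℂ := fun j o => o.elim (c j) (h j) with hw
  set e : Option (Pth p) → Pth p → ℂ := fun o x => o.elim 1 fun b => if x = b then 1 else 0 with he
  have e1 : ∀ j x, c j + h j x = ∑ o, w j o * e o x := fun j x => by
    rw [Fintype.sum_option]
    simp [hw, he]
  set D' : (Fin N → Option (Pth p)) → Fin (p + 1) → (Fin N → Bool) → ℂ := fun o k σ =>
    ∏ j, (o j).elim 1 fun b => if σ j = b.1 k then 1 else 0 with hD'
  set D : (Fin N → Option (Pth p)) → Fin (p + 1) → (Fin N → Bool) → ℂ := fun o k σ =>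
    ∏ j, (o j).elim 1 fun b => if σ j = b.2 k then 1 else 0 with hD
  have e2 : ∀ (o : Fin N → Option (Pth p)) (a : Fin N → Pth p), ∏ j, e (o j) (a j) =
      (∏ k, D' o k fun i => (a i).1 k) * ∏ k, D o k fun i => (a i).2 k := fun o a => by
    simp only [hD', hD]
    rw [Finset.prod_comm, Finset.prod_comm (s := (Finset.univ : Finset (Fin (p + 1)))),
      ← Finset.prod_mul_distrib]
    refine Finset.prod_congr rfl fun j _ => ?_
    rcases o j with _ | b
    · simp [he]
    · simp only [he, Option.elim, Finset.prod_boole, Finset.mem_univ, true_imp_iff, Prod.ext_iff,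
        funext_iff]
      by_cases h1 : ∀ k, (a j).1 k = b.1 k <;> by_cases h2 : ∀ k, (a j).2 k = b.2 k <;>
        simp [h1, h2]
  have hn : ∀ (P : Fin N → Pth p → Prop) [∀ j b, Decidable (P j b)] (o : Fin N → Option (Pth p)),
      ‖∏ j, ((o j).elim 1 fun b => if P j b then 1 else 0 : ℂ)‖ ≤ 1 := fun P _ o => by
    rw [norm_prod]
    refine Finset.prod_le_one (fun _ _ => norm_nonneg _) fun j _ => ?_
    rcases o j with _ | b
    · simp
    · simp only [Option.elim]
      split_ifs <;> simp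
  have e3 : (mm γ β N ε fun a => ∏ j, (c j + h j (a j))) =
      ∑ o : Fin N → Option (Pth p), (∏ j, w j (o j)) * mm γ β N ε fun a =>
        (∏ k, D' o k fun i => (a i).1 k) * ∏ k, D o k fun i => (a i).2 k := by
    simp only [mm, e1, ← e2, Finset.prod_univ_sum, Fintype.piFinset_univ, Finset.prod_mul_distrib,
      Finset.mul_sum (s := (Finset.univ : Finset (Fin N → Option (Pth p)))),
      Finset.mul_sum (s := (Finset.univ : Finset (Fin N → Pth p)))]
    rw [Finset.sum_comm]
    exact Finset.sum_congr rfl fun o _ => Finset.sum_congr rfl fun a _ => by ring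
  have e4 : ∏ j, (‖c j‖ + ∑ b, ‖h j b‖) = ∑ o : Fin N → Option (Pth p), ∏ j, ‖w j (o j)‖ := by
    rw [← Fintype.piFinset_univ, ← Finset.prod_univ_sum (fun _ => Finset.univ)
      (fun j o => ‖w j o‖)]
    refine Finset.prod_congr rfl fun j _ => ?_
    rw [Fintype.sum_option]
    simp [hw]
  rw [e3, e4]
  refine (norm_sum_le _ _).trans (Finset.sum_le_sum fun o _ => ?_)
  rw [norm_mul, norm_prod]
  refine mul_le_of_le_one_right (Finset.prod_nonneg fun _ _ => norm_nonneg _) ?_
  exact mm_prod_bound γ β N hε (D' o) (D o) (fun k σ => hn (fun j b => σ j = b.1 k) o)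
    fun k σ => hn (fun j b => σ j = b.2 k) o

/-- Plan: `exp (nu ε l a) = ∏ j, (1 + (exp (ε l (a j)) - 1))`;
`‖exp z - 1‖ ≤ exp ‖z‖ - 1` (`Complex.norm_exp_sub_one_le`-like; or series) and
`exp (ε r) - 1 ≤ ε * exp r` for `0 ≤ ε ≤ 1`, `r ≥ 0` (convexity: `convexOn_exp`, or
`exp x - 1 ≤ x exp x`, `r ≤ exp r`, adjust as needed: `ε r exp (ε r) ≤ ε exp (2 r)`);
`1 + x ≤ exp x`, `Real.exp_nat_mul`. -/
theorem ZZ_bound (γ β : Fin p → ℝ) (N : ℕ) {ε : ℝ} (hε : 0 ≤ ε) (hε1 : ε ≤ 1) {r : ℝ}
    (l : Pth p → ℂ) (hl : ∀ b, ‖l b‖ ≤ r) :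
    ‖ZZ γ β N ε l‖ ≤ Real.exp (ε * N * (Fintype.card (Pth p) * Real.exp (2 * r))) := by
  have e1 : (fun a : Fin N → Pth p => Complex.exp (nu ε l a)) =
      fun a => ∏ j, ((1 : ℂ) + (Complex.exp ((ε : ℂ) * l (a j)) - 1)) := by
    funext a
    simp only [nu, Finset.mul_sum, Complex.exp_sum, add_sub_cancel]
  have hb : ∀ b, ‖Complex.exp ((ε : ℂ) * l b) - 1‖ ≤ ε * Real.exp (2 * r) := fun b => by
    have hr : 0 ≤ r := (norm_nonneg _).trans (hl b)
    have h1 := Complex.norm_exp_sub_sum_le_norm_mul_exp ((ε : ℂ) * l b) 1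
    simp only [Finset.range_one, Finset.sum_singleton, pow_zero, Nat.factorial_zero, Nat.cast_one,
      div_one, pow_one] at h1
    have h2 : ‖(ε : ℂ) * l b‖ ≤ ε * r := by
      rw [norm_mul, Complex.norm_real, Real.norm_of_nonneg hε]
      exact mul_le_mul_of_nonneg_left (hl b) hε
    have h3 : ε * r ≤ r := mul_le_of_le_one_left hr hε1
    have h4 : r ≤ Real.exp r := by linarith [Real.add_one_le_exp r]
    calc _ ≤ _ := h1
      _ ≤ ε * r * Real.exp r := by gcongr; exact h2.trans h3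
      _ ≤ ε * Real.exp r * Real.exp r := by gcongr
      _ = _ := by rw [mul_assoc, ← Real.exp_add, two_mul]
  unfold ZZ
  rw [e1]
  have key := mm_tensor_bound γ β N hε (fun _ => 1)
    (fun _ b => Complex.exp ((ε : ℂ) * l b) - 1)
  refine key.trans ?_
  calc ∏ _j : Fin N, (‖(1 : ℂ)‖ + ∑ b, ‖Complex.exp ((ε : ℂ) * l b) - 1‖) ≤ ∏ _j : Fin N, Real.exp (ε * (Fintype.card (Pth p) * Real.exp (2 * r))) := by
        refine Finset.prod_le_prod (fun _ _ => by positivity) fun j _ => ?_
        have h1 : ∑ b, ‖Complex.exp ((ε : ℂ) * l b) - 1‖ ≤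
            ε * (Fintype.card (Pth p) * Real.exp (2 * r)) := by
          refine (Finset.sum_le_sum fun b _ => hb b).trans (le_of_eq ?_)
          rw [Finset.sum_const, Finset.card_univ, nsmul_eq_mul]; ring
        have h2 := Real.add_one_le_exp (ε * (Fintype.card (Pth p) * Real.exp (2 * r)))
        rw [norm_one]
        linarith
    _ = _ := by
        rw [Finset.prod_const, Finset.card_univ, Fintype.card_fin, ← Real.exp_nat_mul]
        congr 1; ring

end Crest.Agent.R339.B
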