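import Crest.Agent.R339.B.Repr

/-! # Row 339, part B: cavity identities -/

set_option autoImplicit false

namespace Crest.Agent.R339.B

open MeasureTheory ProbabilityTheory Filter Topology Crest.MathPhysics.SpinGlass

variable {p : ℕ}

theorem cavity_mm_mul (γ β : Fin p → ℝ) (N : ℕ) (ε : ℝ) (c : ℂ) (F : (Fin N → Pth p) → ℂ) :
    mm γ β N ε (fun a => c * F a) = c * mm γ β N ε F := by
  unfold mm
  rw [Finset.mul_sum]
  exact Finset.sum_congr rfl fun a _ => by ring

theorem cavity_mm_add (γ β : Fin p → ℝ) (N : ℕ) (ε : ℝ) (F G : (Fin N → Pth p) → ℂ) :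
    mm γ β N ε (fun a => F a + G a) = mm γ β N ε F + mm γ β N ε G := by
  unfold mm
  rw [← Finset.sum_add_distrib]
  exact Finset.sum_congr rfl fun a _ => by ring

theorem cavity_nu_add {N : ℕ} (ε : ℝ) (g g' : Pth p → ℂ) (a : Fin N → Pth p) :
    nu ε (g + g') a = nu ε g a + nu ε g' a := by
  simp only [nu, Pi.add_apply, Finset.sum_add_distrib, mul_add]

theorem cavity_nu_lin {N : ℕ} (ε : ℝ) (l δ : Pth p → ℂ) (s : ℂ) (a : Fin N → Pth p) :
    nu ε (fun b => l b + s * δ b) a = nu ε l a + s * nu ε δ a := by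
  simp only [nu, Finset.sum_add_distrib, ← Finset.mul_sum]
  ring

theorem nu_insertNth {N : ℕ} (ε : ℝ) (g : Pth p → ℂ) (i : Fin (N + 1)) (b : Pth p)
    (a : Fin N → Pth p) :
    nu ε g (Fin.insertNth (α := fun _ => Pth p) i b a) = ε * g b + nu ε g a := by
  unfold nu
  rw [Fin.sum_univ_succAbove _ i, mul_add]
  simp only [Fin.insertNth_apply_same, Fin.insertNth_apply_succAbove]

/-- Plan: reindex by `Fin.insertNthEquiv (fun _ => Pth p) i`, `Fintype.sum_prod_type`,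
`Fin.prod_univ_succAbove _ i`, `Fin.sum_univ_succAbove _ i` (three times), `lam_self`, `lam_symm`,
`Complex.exp_add`. -/
theorem mm_succ (γ β : Fin p → ℝ) (N : ℕ) (ε : ℝ) (i : Fin (N + 1))
    (Φ : (Fin (N + 1) → Pth p) → ℂ) :
    mm γ β (N + 1) ε Φ = ∑ b, wt β b * mm γ β N ε fun a =>
      Complex.exp (nu ε (lam γ b) a) * Φ (Fin.insertNth (α := fun _ => Pth p) i b a) := by
  unfold mm
  rw [← (Fin.insertNthEquiv (fun _ => Pth p) i).sum_comp, Fintype.sum_prod_type]
  refine Finset.sum_congr rfl fun b _ => ?_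
  rw [Finset.mul_sum]
  refine Finset.sum_congr rfl fun a _ => ?_
  have e : (Fin.insertNthEquiv (fun _ => Pth p) i) (b, a) =
      Fin.insertNth (α := fun _ => Pth p) i b a := rfl
  rw [e]
  have e1 : ∏ j, wt β (Fin.insertNth (α := fun _ => Pth p) i b a j) = wt β b * ∏ j, wt β (a j) := by
    rw [Fin.prod_univ_succAbove _ i]
    simp only [Fin.insertNth_apply_same, Fin.insertNth_apply_succAbove]
  have e2 : (ε : ℂ) / 2 * ∑ j, ∑ k, lam γ (Fin.insertNth (α := fun _ => Pth p) i b a j)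
      (Fin.insertNth (α := fun _ => Pth p) i b a k) =
      (ε : ℂ) / 2 * ∑ j, ∑ k, lam γ (a j) (a k) + nu ε (lam γ b) a := by
    simp only [Fin.sum_univ_succAbove _ i, Fin.insertNth_apply_same,
      Fin.insertNth_apply_succAbove, Finset.sum_add_distrib, lam_self, nu]
    rw [Finset.sum_congr rfl fun j _ => lam_symm γ (a j) b]
    ring
  rw [e1, e2, Complex.exp_add]
  ring

/-- `m[ν(g) F] = ε ∑ i, m[g (a i) F]` -/
theorem mm_nu_mul (γ β : Fin p → ℝ) (N : ℕ) (ε : ℝ) (g : Pth p → ℂ) (F : (Fin N → Pth p) → ℂ) :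
    mm γ β N ε (fun a => nu ε g a * F a) = ε * ∑ i, mm γ β N ε fun a => g (a i) * F a := by
  unfold mm nu
  rw [Finset.sum_comm, Finset.mul_sum]
  refine Finset.sum_congr rfl fun a _ => ?_
  rw [← Finset.mul_sum, ← Finset.sum_mul]
  ring

/-- Plan: `mm_nu_mul`, `mm_succ` with the same `i`, `Fin.insertNth_apply_same`, `nu_insertNth`;
every `i` gives the same term. -/
theorem DD_succ (γ β : Fin p → ℝ) (N : ℕ) (ε : ℝ) (g l : Pth p → ℂ) :
    DD γ β (N + 1) ε g l = (ε * ((N + 1 : ℕ) : ℝ) : ℝ) *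
      ∑ b, wt β b * (g b * (Complex.exp (ε * l b) * ZZ γ β N ε (l + lam γ b))) := by
  unfold DD
  rw [mm_nu_mul, Finset.sum_congr rfl fun i _ => mm_succ γ β N ε i _]
  have e : ∀ (i : Fin (N + 1)) (b : Pth p), (mm γ β N ε fun a =>
      Complex.exp (nu ε (lam γ b) a) * (g (Fin.insertNth (α := fun _ => Pth p) i b a i) *
        Complex.exp (nu ε l (Fin.insertNth (α := fun _ => Pth p) i b a)))) =
      g b * (Complex.exp (ε * l b) * ZZ γ β N ε (l + lam γ b)) := by
    intro i b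
    unfold ZZ
    rw [← cavity_mm_mul, ← cavity_mm_mul]
    congr 1
    funext a
    rw [Fin.insertNth_apply_same, nu_insertNth, cavity_nu_add, Complex.exp_add, Complex.exp_add]
    ring
  simp only [e]
  rw [Finset.sum_const, Finset.card_univ, Fintype.card_fin, nsmul_eq_mul]
  push_cast
  ring

theorem sq_succ (γ β : Fin p → ℝ) (N : ℕ) (ε : ℝ) (g : Pth p → ℂ) :
    mm γ β (N + 1) ε (fun a => nu ε g a ^ 2) = (ε * ((N + 1 : ℕ) : ℝ) : ℝ) *
      ∑ b, wt β b * (g b * (DD γ β N ε g (lam γ b) + ε * g b * ZZ γ β N ε (lam γ b))) := by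
  simp only [sq]
  rw [mm_nu_mul, Finset.sum_congr rfl fun i _ => mm_succ γ β N ε i _]
  have e : ∀ (i : Fin (N + 1)) (b : Pth p), (mm γ β N ε fun a =>
      Complex.exp (nu ε (lam γ b) a) * (g (Fin.insertNth (α := fun _ => Pth p) i b a i) *
        nu ε g (Fin.insertNth (α := fun _ => Pth p) i b a))) =
      g b * (DD γ β N ε g (lam γ b) + ε * g b * ZZ γ β N ε (lam γ b)) := by
    intro i b
    unfold ZZ DD
    rw [← cavity_mm_mul, ← cavity_mm_add, ← cavity_mm_mul]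
    congr 1
    funext a
    rw [Fin.insertNth_apply_same, nu_insertNth]
    ring
  simp only [e]
  rw [Finset.sum_const, Finset.card_univ, Fintype.card_fin, nsmul_eq_mul]
  push_cast
  ring

theorem DD_const (γ β : Fin p → ℝ) (N : ℕ) (ε : ℝ) (c : ℂ) (l : Pth p → ℂ) :
    DD γ β N ε (fun _ => c) l = c * ((ε * (N : ℝ) : ℝ) * ZZ γ β N ε l) := by
  unfold DD ZZ
  rw [← cavity_mm_mul, ← cavity_mm_mul]
  congr 1
  funext a
  simp only [nu, Finset.sum_const, Finset.card_univ, Fintype.card_fin, nsmul_eq_mul]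
  push_cast
  ring

theorem DD_add (γ β : Fin p → ℝ) (N : ℕ) (ε : ℝ) (g g' l : Pth p → ℂ) :
    DD γ β N ε (g + g') l = DD γ β N ε g l + DD γ β N ε g' l := by
  unfold DD
  rw [← cavity_mm_add]
  congr 1
  funext a
  rw [cavity_nu_add, add_mul]

/-- Plan: `nu ε (l + t • δ) a = nu ε l a + t * nu ε δ a`; `HasDerivAt.fun_sum`,
`HasDerivAt.cexp`, `HasDerivAt.ofReal_comp`/`Complex.ofRealCLM.hasDerivAt`. -/
theorem hasDerivAt_ZZ (γ β : Fin p → ℝ) (N : ℕ) (ε : ℝ) (l δ : Pth p → ℂ) (t : ℝ) :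
    HasDerivAt (fun s : ℝ => ZZ γ β N ε fun b => l b + (s : ℂ) * δ b)
      (DD γ β N ε δ fun b => l b + (t : ℂ) * δ b) t := by
  unfold ZZ DD mm
  simp only [cavity_nu_lin]
  refine HasDerivAt.fun_sum fun a _ => HasDerivAt.const_mul _ ?_
  have h1 : HasDerivAt (fun s : ℝ => nu ε l a + (s : ℂ) * nu ε δ a) (nu ε δ a) t := by
    have := (Complex.ofRealCLM.hasDerivAt (x := t)).mul_const (nu ε δ a)
    simpa using this.const_add (nu ε l a)
  rw [mul_comm]
  exact h1.cexp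

theorem continuous_DD (γ β : Fin p → ℝ) (N : ℕ) (ε : ℝ) (g l δ : Pth p → ℂ) :
    Continuous fun s : ℝ => DD γ β N ε g fun b => l b + (s : ℂ) * δ b := by
  unfold DD mm
  simp only [cavity_nu_lin]
  fun_prop

end Crest.Agent.R339.B
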