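import Crest.Agent.R339.B.PathState

/-! # Row 339, part B: unitarity collapses a causal one-spin path sum -/

set_option autoImplicit false

namespace Crest.Agent.R339.B

open MeasureTheory ProbabilityTheory Filter Topology Crest.MathPhysics.SpinGlass

variable {p : ℕ}

theorem Collapse_sum_snoc (F : (Fin (p + 1 + 1) → Bool) → ℂ) :
    ∑ a, F a = ∑ u : Fin (p + 1) → Bool, ∑ x : Bool, F (Fin.snoc (α := fun _ => Bool) u x) := by
  rw [← (Fin.snocEquiv fun _ : Fin (p + 1 + 1) => Bool).sum_comp, Fintype.sum_prod_type,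
    Finset.sum_comm]
  rfl

theorem Collapse_step (β : Fin (p + 1) → ℝ) (h : Pth (p + 1) → ℂ)
    (hh : ∀ (u v : Fin (p + 1) → Bool) (x : Bool),
      h (Fin.snoc (α := fun _ => Bool) u x, Fin.snoc (α := fun _ => Bool) v x) =
        h (Fin.snoc (α := fun _ => Bool) u false, Fin.snoc (α := fun _ => Bool) v false)) :
    ∑ b, wt β b * h b = ∑ c : Pth p, wt (Fin.init β) c *
      h (Fin.snoc (α := fun _ => Bool) c.1 false, Fin.snoc (α := fun _ => Bool) c.2 false) := by
  rw [Fintype.sum_prod_type, Fintype.sum_prod_type, Collapse_sum_snoc]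
  refine Finset.sum_congr rfl fun u _ => ?_
  simp only [Collapse_sum_snoc]
  rw [Finset.sum_comm]
  refine Finset.sum_congr rfl fun v _ => ?_
  have hu := mix_unitary (β (Fin.last p)) (v (Fin.last p)) (u (Fin.last p))
  have e : ∀ x : Bool, ∑ y : Bool, wt β (Fin.snoc (α := fun _ => Bool) u x,
      Fin.snoc (α := fun _ => Bool) v y) *
      h (Fin.snoc (α := fun _ => Bool) u x, Fin.snoc (α := fun _ => Bool) v y) =
      ((starRingEnd ℂ) (amp (Fin.init β) u) * amp (Fin.init β) v *
        h (Fin.snoc (α := fun _ => Bool) u false, Fin.snoc (α := fun _ => Bool) v false)) *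
      ((starRingEnd ℂ) (mix (β (Fin.last p)) x (u (Fin.last p))) *
        mix (β (Fin.last p)) x (v (Fin.last p))) := fun x => by
    simp only [wt, Fin.snoc_last, ite_mul, zero_mul, Finset.sum_ite_eq, Finset.mem_univ, if_true,
      amp_snoc, map_mul, hh u v x]
    ring
  simp only [e]
  rw [← Finset.mul_sum, hu, wt]
  split_ifs <;> ring

theorem Collapse_lt {s : ℕ} {b c : Pth p} (x : Bool) (H : Agree s b c) :
    Agree s (p := p + 1) (Fin.snoc (α := fun _ => Bool) b.1 x, Fin.snoc (α := fun _ => Bool) b.2 x)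
      (Fin.snoc (α := fun _ => Bool) c.1 x, Fin.snoc (α := fun _ => Bool) c.2 x) := by
  intro t ht
  refine Fin.lastCases (fun _ => ?_) (fun t ht => ?_) t ht
  · simp
  · simpa using H t ht

theorem Collapse_diag {s : ℕ} {b : Pth p} (x : Bool) (H : Diag s b) :
    Diag s (p := p + 1)
      (Fin.snoc (α := fun _ => Bool) b.1 x, Fin.snoc (α := fun _ => Bool) b.2 x) := by
  intro t ht
  refine Fin.lastCases (fun _ => ?_) (fun t ht => ?_) t ht
  · simp
  · simpa using H t ht

/-- Plan: induction on `p` (generalizing `β k h`, with `k : ℕ`, `k ≤ p`).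
If `k = p` every term vanishes (`wt` forces `b.1 last = b.2 last`, i.e. `Diag p b`).
If `k ≤ p` and the depth is `p + 1`: write `b = (snoc u x', snoc v x)` (`Fin.snocEquiv`), `wt` forces
`x' = x`; `h (snoc u x, snoc v x)` does not depend on `x` (causality with `s = p + 1`), so it equals
`h' (u, v) := h (snoc u false, snoc v false)`; `amp_snoc` and `mix_unitary` give
`∑ b, wt β b * h b = ∑ c, wt (Fin.init β) c * h' c`; `h'` is again causal from `k + 1` and vanishes on
`Diag k`. -/
theorem sum_wt_eq_zero (β : Fin p → ℝ) (k : ℕ) (hk : k ≤ p) (h : Pth p → ℂ)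
    (hh : Causal (k + 1) h) (h0 : ∀ b, Diag k b → h b = 0) : ∑ b, wt β b * h b = 0 := by
  induction p with
  | zero =>
    refine Finset.sum_eq_zero fun b _ => ?_
    unfold wt
    split_ifs with hb
    · rw [h0 b fun t _ => by rw [Fin.fin_one_eq_zero t]; exact hb, mul_zero]
    · rw [zero_mul]
  | succ p ih =>
    rcases hk.eq_or_lt with rfl | hk
    · refine Finset.sum_eq_zero fun b _ => ?_
      unfold wt
      split_ifs with hb
      · rw [h0 b fun t ht => by
          have : t = Fin.last (p + 1) := Fin.ext (le_antisymm (Nat.lt_succ_iff.1 t.isLt) ht)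
          rw [this]; exact hb, mul_zero]
      · rw [zero_mul]
    · rw [Collapse_step β h fun u v x => hh (p + 1) hk _ _ ?_ ?_ ?_]
      · exact ih _ (Nat.lt_succ_iff.1 hk) _
          (fun s hs b c h1 h2 h3 => hh s hs _ _ (Collapse_lt _ h1) (Collapse_diag _ h2)
            (Collapse_diag _ h3)) fun b hb => h0 _ (Collapse_diag _ hb)
      · intro t ht
        refine Fin.lastCases (fun ht => ?_) (fun t _ => ?_) t ht
        · simp at ht
        · simp
      · exact Collapse_diag (b := (u, v)) x fun t ht => absurd t.isLt (by omega)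
      · exact Collapse_diag (b := (u, v)) false fun t ht => absurd t.isLt (by omega)

/-- Plan: `sum_wt_eq_zero` for `h - h ∘ kap k`; `dep_kap`, `kap_agree_succ`, `kap_diag`. -/
theorem collapse (β : Fin p → ℝ) (k : Fin (p + 1)) (h : Pth p → ℂ)
    (hh : Causal ((k : ℕ) + 1) h) : ∑ b, wt β b * h b = ∑ b, wt β b * h (kap k b) := by
  have h1 := sum_wt_eq_zero β k (Nat.lt_succ_iff.1 k.isLt) (fun b => h b - h (kap k b))
    (fun s hs b c h1 h2 h3 => by
      simp only [hh s hs b c h1 h2 h3, dep_kap k b c (h1.mono hs)])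
    (fun b hb => sub_eq_zero.2 (hh _ le_rfl _ _ (kap_agree_succ k b (hb k le_rfl))
      (fun t ht => kap_diag k b t (by omega)) fun t ht => hb t (by omega)).symm)
  simpa only [mul_sub, Finset.sum_sub_distrib, sub_eq_zero] using h1

/-- Plan: `mm_one`-free: induction as in `sum_wt_eq_zero`, or `pathState_norm_eq` with `N = 1`;
directly: induction on `p`, `∑ b, wt β b = ∑ c, wt (Fin.init β) c`, and for `p = 0` two terms `1/2`. -/
theorem sum_wt (β : Fin p → ℝ) : ∑ b : Pth p, wt β b = 1 := by
  induction p with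
  | zero =>
    rw [Fintype.sum_prod_type]
    simp only [← (Equiv.funUnique (Fin 1) Bool).symm.sum_comp, wt, amp]
    have h2 : ((√2 : ℝ) : ℂ) * ((√2 : ℝ) : ℂ) = 2 := by
      rw [← Complex.ofReal_mul, Real.mul_self_sqrt zero_le_two]; norm_num
    have h3 : ((√2 : ℝ) : ℂ) ≠ 0 := fun h => by rw [h] at h2; norm_num at h2
    simp [Complex.conj_ofReal]
    field_simp
    rw [sq, h2]
  | succ p ih =>
    have := Collapse_step β (fun _ => 1) fun _ _ _ => rfl
    simpa only [mul_one, ih] using this

end Crest.Agent.R339.B
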