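import Mathlib
import Crest.Agent.R339.Iface

/-!
# Row 339, part B: definitions

Streamlined form of `PlanGB.lean`, part B.  No polynomial algebra is used: everything is
expressed through the generating functional `ZZ N ε l = m[exp ν(l)]` of the empirical measure
`ν(g) = ε ∑ i, g (a i)` of the one-spin contour paths, and its first derivative
`DD N ε g l = m[ν(g) exp ν(l)]`.

* `mm` is the complex path-sum functional for `N` spins with coupling `ε`;
* cavity: `DD (N+1) ε g l = ε (N+1) ∑ b, wt b * g b * exp (ε l b) * ZZ N ε (l + lam b)`;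
* `g` is *good* if `DD g l - nuS g * ZZ l → 0` along `adm` for all `l`;
  a good `δ` satisfies `ZZ (l + δ) - exp (nuS δ) ZZ l → 0`;
* downward induction: `Ideal k g` is good;  upward induction: `Dep k g` is good.
-/

set_option autoImplicit false

namespace Crest.Agent.R339.B

open MeasureTheory ProbabilityTheory Filter Topology Crest.MathPhysics.SpinGlass

/-- one-spin contour path: `b.1` is the bra path, `b.2` the ket path -/
abbrev Pth (p : ℕ) := (Fin (p + 1) → Bool) × (Fin (p + 1) → Bool)

variable {p : ℕ}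

/-- weight of a one-spin contour path -/
noncomputable def wt (β : Fin p → ℝ) (b : Pth p) : ℂ :=
  if b.1 (Fin.last p) = b.2 (Fin.last p) then (starRingEnd ℂ) (amp β b.1) * amp β b.2 else 0

/-- contribution of time `k` to the pair coupling of two paths -/
noncomputable def xk (γ : Fin p → ℝ) (b a : Pth p) (k : Fin p) : ℂ :=
  (γ k : ℂ) * (sg (b.1 k.castSucc) * sg (a.1 k.castSucc)
    - sg (b.2 k.castSucc) * sg (a.2 k.castSucc))

/-- pair interaction after Gaussian averaging -/
noncomputable def lam (γ : Fin p → ℝ) (b a : Pth p) : ℂ := -(∑ k, xk γ b a k) ^ 2 / 2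

/-- the path-sum functional for `N` spins and coupling `ε` -/
noncomputable def mm (γ β : Fin p → ℝ) (N : ℕ) (ε : ℝ) (Φ : (Fin N → Pth p) → ℂ) : ℂ :=
  ∑ a : Fin N → Pth p, (∏ i, wt β (a i)) *
    Complex.exp ((ε : ℂ) / 2 * ∑ i, ∑ j, lam γ (a i) (a j)) * Φ a

/-- the empirical measure, normalised by `ε` -/
noncomputable def nu {N : ℕ} (ε : ℝ) (g : Pth p → ℂ) (a : Fin N → Pth p) : ℂ :=
  (ε : ℂ) * ∑ i, g (a i)

/-- generating functional -/
noncomputable def ZZ (γ β : Fin p → ℝ) (N : ℕ) (ε : ℝ) (l : Pth p → ℂ) : ℂ :=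
  mm γ β N ε fun a => Complex.exp (nu ε l a)

/-- derivative of the generating functional in the direction `g` -/
noncomputable def DD (γ β : Fin p → ℝ) (N : ℕ) (ε : ℝ) (g l : Pth p → ℂ) : ℂ :=
  mm γ β N ε fun a => nu ε g a * Complex.exp (nu ε l a)

/-! ### states as path sums -/

/-- `D p · U_B(β (p-1)) D (p-1) ⋯ U_B(β 0) D 0 |+⟩` for diagonal operators `D k`, as a path sum -/
noncomputable def pathState {N : ℕ} (β : Fin p → ℝ) (D : Fin (p + 1) → (Fin N → Bool) → ℂ)
    (σ : Fin N → Bool) : ℂ :=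
  ∑ w : Fin (p + 1) → Fin N → Bool,
    if w (Fin.last p) = σ then (∏ i, amp β fun k => w k i) * ∏ k, D k (w k) else 0

/-- cost angles extended by `0` at the last time -/
noncomputable def gam (γ : Fin p → ℝ) : Fin (p + 1) → ℝ := Fin.snoc (α := fun _ => ℝ) γ 0

@[simp] theorem gam_castSucc (γ : Fin p → ℝ) (k : Fin p) : gam γ k.castSucc = γ k := by
  simp [gam]

@[simp] theorem gam_last (γ : Fin p → ℝ) : gam γ (Fin.last p) = 0 := by simp [gam]

/-- the cost rotations for the energy function `H` -/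
noncomputable def costD {N : ℕ} (γ : Fin p → ℝ) (H : (Fin N → Bool) → ℝ) (k : Fin (p + 1))
    (σ : Fin N → Bool) : ℂ :=
  Complex.exp (-(Complex.I * (gam γ k : ℂ) * (H σ : ℂ)))

/-- energy with coupling `ε` -/
noncomputable def Hen (N : ℕ) (ε : ℝ) (J : Fin N → Fin N → ℝ) (σ : Fin N → Bool) : ℝ :=
  Real.sqrt ε * ∑ i, ∑ j, if i < j then J i j * spinSign (σ i) * spinSign (σ j) else 0

/-- the phase of a family of contour paths -/
noncomputable def phase {N : ℕ} (γ : Fin p → ℝ) (H : (Fin N → Bool) → ℝ) (a : Fin N → Pth p) :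
    ℂ :=
  (∏ k, (starRingEnd ℂ) (costD γ H k fun i => (a i).1 k)) * ∏ k, costD γ H k fun i => (a i).2 k

/-- coefficient of `J i j` in the phase -/
noncomputable def tt {N : ℕ} (γ : Fin p → ℝ) (ε : ℝ) (a : Fin N → Pth p) (i j : Fin N) : ℝ :=
  if i < j then Real.sqrt ε * ∑ k : Fin p, γ k *
    (spinSign ((a i).1 k.castSucc) * spinSign ((a j).1 k.castSucc)
      - spinSign ((a i).2 k.castSucc) * spinSign ((a j).2 k.castSucc)) else 0

/-- bra time `k` against the last time -/
noncomputable def gB (k : Fin p) (a : Pth p) : ℂ := sg (a.1 k.castSucc) * sg (a.2 (Fin.last p))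

/-- ket time `k` against the last time -/
noncomputable def gK (k : Fin p) (a : Pth p) : ℂ := sg (a.2 k.castSucc) * sg (a.2 (Fin.last p))

/-! ### causality for one spin -/

/-- collapse at time `k`: keep the times `< k`, afterwards both branches are the ket value at `k` -/
def kap (k : Fin (p + 1)) (b : Pth p) : Pth p :=
  (fun t => if t < k then b.1 t else b.2 k, fun t => if t < k then b.2 t else b.2 k)

/-- `b` and `c` agree at the times `< s` -/
def Agree (s : ℕ) (b c : Pth p) : Prop :=
  ∀ t : Fin (p + 1), (t : ℕ) < s → b.1 t = c.1 t ∧ b.2 t = c.2 t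

/-- the two branches of `b` coincide at the times `≥ s` -/
def Diag (s : ℕ) (b : Pth p) : Prop := ∀ t : Fin (p + 1), s ≤ (t : ℕ) → b.1 t = b.2 t

/-- `g` depends only on the times `< k` -/
def Dep {α : Type*} (k : ℕ) (g : Pth p → α) : Prop := ∀ b c : Pth p, Agree k b c → g b = g c

/-- `h` is causal from time `k` on: a diagonal tail that starts at a time `≥ k` is not seen -/
def Causal {α : Type*} (k : ℕ) (h : Pth p → α) : Prop :=
  ∀ s : ℕ, k ≤ s → ∀ b c : Pth p, Agree s b c → Diag s b → Diag s c → h b = h c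

/-- `g` depends only on the times `≤ k` and vanishes if the branches coincide at time `k` -/
def Ideal (k : Fin (p + 1)) (g : Pth p → ℂ) : Prop :=
  Dep ((k : ℕ) + 1) g ∧ ∀ b : Pth p, b.1 k = b.2 k → g b = 0

/-- the part of `lam` whose latest time is `l` -/
noncomputable def qk (γ : Fin p → ℝ) (b a : Pth p) (l : Fin p) : ℂ :=
  -(xk γ b a l * (xk γ b a l + 2 * ∑ m, if m < l then xk γ b a m else 0)) / 2

/-- `lam` with the terms of latest time `l ≥ k` collapsed -/
noncomputable def lamK (γ : Fin p → ℝ) (k : ℕ) (b a : Pth p) : ℂ :=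
  ∑ l : Fin p, if (l : ℕ) < k then qk γ b a l else qk γ b (kap l.castSucc a) l

/-- covariance matrix of the limiting field -/
noncomputable def Gam (γ : Fin p → ℝ) (G : Fin (p + 1) → Fin (p + 1) → ℂ) (k l : Fin p) : ℂ :=
  (γ k : ℂ) * (γ l : ℂ) * G k.castSucc l.castSucc

/-- the limiting empirical measure -/
noncomputable def nuS (γ β : Fin p → ℝ) (G : Fin (p + 1) → Fin (p + 1) → ℂ) (g : Pth p → ℂ) : ℂ :=
  ∑ b : Pth p, wt β b * (g b * Complex.exp (quad (Gam γ G) b.1 b.2))

/-- admissible limits: `N → ∞`, `ε N → 1` -/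
def adm : Filter (ℕ × ℝ) :=
  comap Prod.fst atTop ⊓ comap (fun x : ℕ × ℝ => x.2 * (x.1 : ℝ)) (𝓝 1)

theorem sg_mul_self (b : Bool) : sg b * sg b = 1 := by cases b <;> simp [sg, spinSign]

theorem norm_sg (b : Bool) : ‖sg b‖ = 1 := by cases b <;> simp [sg, spinSign]

theorem Agree.mono {s s' : ℕ} (h : s ≤ s') {b c : Pth p} (H : Agree s' b c) : Agree s b c :=
  fun t ht => H t (lt_of_lt_of_le ht h)

theorem Dep.mono {α : Type*} {k k' : ℕ} (h : k ≤ k') {g : Pth p → α} (H : Dep k g) : Dep k' g :=
  fun b c hbc => H b c (hbc.mono h)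

theorem Dep.causal {α : Type*} {k : ℕ} {g : Pth p → α} (H : Dep k g) : Causal k g :=
  fun _ hs b c hbc _ _ => H b c (hbc.mono hs)

theorem Causal.mono {α : Type*} {k k' : ℕ} (h : k ≤ k') {g : Pth p → α} (H : Causal k g) :
    Causal k' g :=
  fun s hs => H s (le_trans h hs)

theorem Causal.comp {α δ : Type*} {k : ℕ} {g : Pth p → α} (H : Causal k g) (F : α → δ) :
    Causal k fun b => F (g b) :=
  fun s hs b c h1 h2 h3 => by simp only [H s hs b c h1 h2 h3]

theorem Causal.mul {k : ℕ} {g h : Pth p → ℂ} (H : Causal k g) (H' : Causal k h) :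
    Causal k fun b => g b * h b :=
  fun s hs b c h1 h2 h3 => by simp only [H s hs b c h1 h2 h3, H' s hs b c h1 h2 h3]

theorem dep_top {α : Type*} (g : Pth p → α) : Dep (p + 1) g := by
  intro b c h
  have : b = c := Prod.ext (funext fun t => (h t t.isLt).1) (funext fun t => (h t t.isLt).2)
  rw [this]

theorem kap_diag (k : Fin (p + 1)) (b : Pth p) : Diag k (kap k b) := by
  intro t ht
  have : ¬ t < k := by rw [Fin.lt_def]; omega
  simp [kap, this]

theorem kap_agree (k : Fin (p + 1)) (b : Pth p) : Agree k (kap k b) b := by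
  intro t ht
  have : t < k := by rw [Fin.lt_def]; omega
  simp [kap, this]

theorem kap_agree_succ (k : Fin (p + 1)) (b : Pth p) (hb : b.1 k = b.2 k) :
    Agree ((k : ℕ) + 1) (kap k b) b := by
  intro t ht
  by_cases h : t < k
  · simp [kap, h]
  · have : t = k := by rw [Fin.lt_def] at h; ext; omega
    subst this
    simp [kap, hb]

theorem dep_kap (k : Fin (p + 1)) : Dep ((k : ℕ) + 1) (kap k : Pth p → Pth p) := by
  intro b c h
  have hk := (h k (Nat.lt_succ_self _)).2
  refine Prod.ext (funext fun t => ?_) (funext fun t => ?_)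
  · by_cases ht : t < k
    · have := (h t (by rw [Fin.lt_def] at ht; omega)).1
      simp [kap, ht, this]
    · simp [kap, ht, hk]
  · by_cases ht : t < k
    · have := (h t (by rw [Fin.lt_def] at ht; omega)).2
      simp [kap, ht, this]
    · simp [kap, ht, hk]

end Crest.Agent.R339.B
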