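import Crest.Agent.R339.B.Repr

/-! # Row 339, part B: exact formula for the averaged energy -/

set_option autoImplicit false

namespace Crest.Agent.R339.B

open MeasureTheory ProbabilityTheory Filter Topology Crest.MathPhysics.SpinGlass

variable {p : ℕ}

/-- coefficient of `J i j` in the energy of the last configuration -/
noncomputable def cc {N : ℕ} (ε : ℝ) (a : Fin N → Pth p) (i j : Fin N) : ℝ :=
  if i < j then Real.sqrt ε *
    (spinSign ((a i).2 (Fin.last p)) * spinSign ((a j).2 (Fin.last p))) else 0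

/-- Plan: `alt_eq`, `‖z‖² = conj z * z`, `inner_pathState` with `W σ = pairEnergy n J σ`,
`pairEnergy_eq`, `phase_eq`. -/
theorem expectedEnergy_eq (γ β : Fin p → ℝ) (n : ℕ) (J : Fin n → Fin n → ℝ) :
    ((expectedEnergy n J (alternatingState n J (List.ofFn fun k => (γ k, β k))) : ℝ) : ℂ)
      = ∑ a : Fin n → Pth p, (∏ i, wt β (a i)) *
          (((∑ i, ∑ j, J i j * cc (1 / (n : ℝ)) a i j : ℝ) : ℂ) *
            Complex.exp (Complex.I * ((∑ i, ∑ j, J i j * tt γ (1 / (n : ℝ)) a i j : ℝ) : ℂ))) := by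
  have h := inner_pathState β (costD γ (pairEnergy n J)) (costD γ (pairEnergy n J))
    (fun σ => ((pairEnergy n J σ : ℝ) : ℂ))
  rw [alt_eq, expectedEnergy, Complex.ofReal_sum]
  have e1 : ∀ σ, ((‖pathState β (costD γ (pairEnergy n J)) σ‖ ^ 2 * pairEnergy n J σ : ℝ) : ℂ) =
      (starRingEnd ℂ) (pathState β (costD γ (pairEnergy n J)) σ) * ((pairEnergy n J σ : ℝ) : ℂ) *
        pathState β (costD γ (pairEnergy n J)) σ := fun σ => by
    push_cast
    rw [← Complex.conj_mul']; ring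
  simp only [e1]
  rw [h]
  refine Finset.sum_congr rfl fun a _ => ?_
  congr 1
  have h2 := phase_eq γ (1 / (n : ℝ)) J a
  rw [← pairEnergy_eq] at h2
  unfold phase at h2
  rw [h2, mul_comm]
  congr 2
  rw [pairEnergy_eq]
  unfold Hen cc
  simp only [Finset.mul_sum]
  refine Finset.sum_congr rfl fun i _ => Finset.sum_congr rfl fun j _ => ?_
  split_ifs <;> ring

/-- Plan: with `x i = gB k (a i)` (resp. `gK`), `∑_{i<j} x i x j = ((∑ x i)² - N)/2` by `sum_sym`
and `sg_mul_self`; the two `N` cancel for each `k`. -/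
theorem cc_tt {N : ℕ} (γ : Fin p → ℝ) {ε : ℝ} (hε : 0 ≤ ε) (a : Fin N → Pth p) :
    (ε : ℂ) * ((∑ i, ∑ j, cc ε a i j * tt γ ε a i j : ℝ) : ℂ)
      = (1 / 2) * ∑ k : Fin p, (γ k : ℂ) * (nu ε (gB k) a ^ 2 - nu ε (gK k) a ^ 2) := by
  set F : Fin N → Fin N → ℂ := fun i j =>
    ∑ k : Fin p, (γ k : ℂ) * (gB k (a i) * gB k (a j) - gK k (a i) * gK k (a j)) with hF
  have hs := sum_sym F fun i j => Finset.sum_congr rfl fun k _ => by ring
  have hd : ∀ i, F i i = 0 := fun i => Finset.sum_eq_zero fun k _ => by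
    have h1 := sg_mul_self ((a i).1 k.castSucc)
    have h2 := sg_mul_self ((a i).2 k.castSucc)
    simp only [gB, gK]
    linear_combination (γ k : ℂ) * sg ((a i).2 (Fin.last p)) ^ 2 * (h1 - h2)
  have hsq : ((Real.sqrt ε : ℝ) : ℂ) * ((Real.sqrt ε : ℝ) : ℂ) = ε := by
    rw [← Complex.ofReal_mul, Real.mul_self_sqrt hε]
  have e1 : ((∑ i, ∑ j, cc ε a i j * tt γ ε a i j : ℝ) : ℂ) =
      (ε : ℂ) * ∑ i, ∑ j, if i < j then F i j else 0 := by
    simp only [Complex.ofReal_sum, Finset.mul_sum]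
    refine Finset.sum_congr rfl fun i _ => Finset.sum_congr rfl fun j _ => ?_
    unfold cc tt
    split_ifs
    · rw [← hsq]
      simp only [hF, gB, gK, sg, Finset.mul_sum]
      push_cast
      refine Finset.sum_congr rfl fun k _ => ?_
      ring
    · simp
  have e2 : ∑ k : Fin p, (γ k : ℂ) * (nu ε (gB k) a ^ 2 - nu ε (gK k) a ^ 2) =
      (ε : ℂ) ^ 2 * ∑ i, ∑ j, F i j := by
    have e3 : ∑ i, ∑ j, F i j = ∑ k : Fin p, ∑ i, ∑ j,
        (γ k : ℂ) * (gB k (a i) * gB k (a j) - gK k (a i) * gK k (a j)) := by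
      simp only [hF]
      rw [Finset.sum_comm (s := Finset.univ (α := Fin p))]
      exact Finset.sum_congr rfl fun i _ => Finset.sum_comm
    rw [e3, Finset.mul_sum]
    refine Finset.sum_congr rfl fun k _ => ?_
    simp only [← Finset.mul_sum, Finset.sum_sub_distrib, ← Finset.sum_mul, nu]
    ring
  rw [e1, e2, hs]
  simp only [hd, Finset.sum_const_zero]
  ring

/-- Plan: `integral_ofReal` (`integral_complex_ofReal`), `expectedEnergy_eq`,
`integral_finset_sum`, `integral_lin_exp_lin`, `tt_sq`, `cc_tt` (`1/n = ε`), unfold `mm`,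
`Finset.sum_comm`. -/
theorem energy_eq (γ β : Fin p → ℝ) (n : ℕ) :
    ((qaoaE (List.ofFn fun k => (γ k, β k)) n : ℝ) : ℂ)
      = Complex.I / 2 * ∑ k : Fin p, (γ k : ℂ) *
          (mm γ β n (1 / (n : ℝ)) (fun a => nu (1 / (n : ℝ)) (gB k) a ^ 2)
            - mm γ β n (1 / (n : ℝ)) (fun a => nu (1 / (n : ℝ)) (gK k) a ^ 2)) := by
  have hε : (0 : ℝ) ≤ 1 / (n : ℝ) := by positivity
  unfold qaoaE
  rw [Complex.ofReal_div, ← integral_complex_ofReal]
  simp only [expectedEnergy_eq]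
  rw [integral_finsetSum _ fun a _ => (integrable_lin_exp_lin n _ _).const_mul _]
  simp only [integral_const_mul, integral_lin_exp_lin, tt_sq γ hε, mm, ← Finset.sum_sub_distrib,
    Finset.mul_sum (s := (Finset.univ : Finset (Fin n → Pth p)))]
  rw [Finset.sum_comm, Finset.mul_sum, Finset.sum_div]
  refine Finset.sum_congr rfl fun a _ => ?_
  have h := cc_tt γ hε a
  set X : ℂ := ((∑ i, ∑ j, cc (1 / (n : ℝ)) a i j * tt γ (1 / (n : ℝ)) a i j : ℝ) : ℂ) with hX
  set E : ℂ := Complex.exp (((1 / (n : ℝ) : ℝ) : ℂ) / 2 * ∑ i, ∑ j, lam γ (a i) (a j)) with hE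
  set W : ℂ := ∏ i, wt β (a i) with hW
  have e1 : ∑ k : Fin p, (γ k : ℂ) * (W * E * nu (1 / (n : ℝ)) (gB k) a ^ 2 -
      W * E * nu (1 / (n : ℝ)) (gK k) a ^ 2) = W * E * ∑ k : Fin p, (γ k : ℂ) *
        (nu (1 / (n : ℝ)) (gB k) a ^ 2 - nu (1 / (n : ℝ)) (gK k) a ^ 2) := by
    rw [Finset.mul_sum]
    exact Finset.sum_congr rfl fun k _ => by ring
  rw [e1]
  have e2 : W * (Complex.I * X * E) / ((n : ℝ) : ℂ) =
      Complex.I * W * E * ((((1 / (n : ℝ) : ℝ)) : ℂ) * X) := by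
    push_cast; ring
  rw [e2, h]
  ring

end Crest.Agent.R339.B
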