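import Crest.Agent.R339.B.Defs

/-! # Row 339, part B: Gaussian averages of phases -/

set_option autoImplicit false

namespace Crest.Agent.R339.B

open MeasureTheory ProbabilityTheory Filter Topology Crest.MathPhysics.SpinGlass

variable {p : ℕ}

instance (n : ℕ) : IsProbabilityMeasure (gaussianCouplings n) := by
  unfold gaussianCouplings; infer_instance

theorem Gauss_prod (n : ℕ) (f : Fin n → Fin n → ℝ → ℂ) :
    ∫ J, ∏ i, ∏ j, f i j (J i j) ∂(gaussianCouplings n) =
      ∏ i, ∏ j, ∫ x, f i j x ∂(gaussianReal 0 1) := by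
  unfold gaussianCouplings
  rw [integral_fintype_prod_eq_prod (fun i (y : Fin n → ℝ) => ∏ j, f i j (y j))]
  exact Finset.prod_congr rfl fun i _ => integral_fintype_prod_eq_prod (f i)

theorem Gauss_one (z : ℂ) :
    ∫ x : ℝ, Complex.exp (z * x) ∂(gaussianReal 0 1) = Complex.exp (z ^ 2 / 2) := by
  have h := complexMGF_id_gaussianReal (μ := 0) (v := 1) z
  simpa [complexMGF] using h

theorem Gauss_one' (z : ℂ) :
    ∫ x : ℝ, (x : ℂ) * Complex.exp (z * x) ∂(gaussianReal 0 1) = z * Complex.exp (z ^ 2 / 2) := by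
  have h1 := hasDerivAt_complexMGF (X := id) (μ := gaussianReal 0 1) (z := z) (by simp)
  have h2 : complexMGF id (gaussianReal 0 1) = fun w : ℂ => Complex.exp (w ^ 2 / 2) := by
    funext w
    exact Gauss_one w
  rw [h2] at h1
  have h3 := ((hasDerivAt_pow 2 z).div_const 2).cexp
  have h4 := h1.unique h3
  simp only [id] at h4
  rw [h4]
  push_cast
  ring

theorem Gauss_exp_eq (n : ℕ) (t J : Fin n → Fin n → ℝ) :
    Complex.exp (Complex.I * ((∑ i, ∑ j, J i j * t i j : ℝ) : ℂ)) =
      ∏ i, ∏ j, Complex.exp (Complex.I * t i j * J i j) := by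
  simp only [← Complex.exp_sum]
  congr 1
  push_cast
  simp only [Finset.mul_sum]
  exact Finset.sum_congr rfl fun i _ => Finset.sum_congr rfl fun j _ => by ring

theorem Gauss_exp_eq' (n : ℕ) (t : Fin n → Fin n → ℝ) :
    ∏ i, ∏ j, Complex.exp ((Complex.I * t i j) ^ 2 / 2) =
      Complex.exp (-((∑ i, ∑ j, t i j ^ 2 : ℝ) : ℂ) / 2) := by
  simp only [← Complex.exp_sum]
  congr 1
  push_cast
  simp only [← Finset.sum_neg_distrib, Finset.sum_div]
  refine Finset.sum_congr rfl fun i _ => Finset.sum_congr rfl fun j _ => ?_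
  rw [mul_pow, Complex.I_sq]
  ring

theorem Gauss_ite {n : ℕ} (i0 j0 : Fin n) (a b : Fin n → Fin n → ℂ) :
    ∏ i, ∏ j, ((if i = i0 ∧ j = j0 then a i j else 1) * b i j) = a i0 j0 * ∏ i, ∏ j, b i j := by
  simp only [Finset.prod_mul_distrib]
  congr 1
  rw [Finset.prod_eq_single i0, Finset.prod_eq_single j0]
  · simp
  · intro j _ hj; simp [hj]
  · simp
  · intro i _ hi; simp [hi]
  · simp

theorem Gauss_eval_int (n : ℕ) (i j : Fin n) :
    Integrable (fun J : Fin n → Fin n → ℝ => J i j) (gaussianCouplings n) := by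
  have h1 : MeasurePreserving (fun J : Fin n → Fin n → ℝ => J i j) (gaussianCouplings n)
      (gaussianReal 0 1) :=
    (measurePreserving_eval (fun _ : Fin n => gaussianReal 0 1) j).comp
      (measurePreserving_eval (fun _ : Fin n => Measure.pi fun _ : Fin n => gaussianReal 0 1) i)
  have h2 : Integrable id (gaussianReal 0 1) :=
    memLp_one_iff_integrable.1 (memLp_id_gaussianReal 1)
  exact h1.integrable_comp_of_integrable h2

theorem integrable_exp_lin (n : ℕ) (t : Fin n → Fin n → ℝ) :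
    Integrable (fun J : Fin n → Fin n → ℝ =>
      Complex.exp (Complex.I * ((∑ i, ∑ j, J i j * t i j : ℝ) : ℂ))) (gaussianCouplings n) := by
  refine Integrable.of_bound (C := 1) (Continuous.aestronglyMeasurable (by fun_prop))
    (Eventually.of_forall fun J => le_of_eq ?_)
  rw [mul_comm, Complex.norm_exp_ofReal_mul_I]

/-- Plan: the integrand is `∏ i, ∏ j, exp (I * J i j * t i j)`; `integral_fintype_prod_eq_prod`
twice; one-dimensional case `charFun_gaussianReal` (unfold `charFun_apply_real`). -/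
theorem integral_exp_lin (n : ℕ) (t : Fin n → Fin n → ℝ) :
    ∫ J, Complex.exp (Complex.I * ((∑ i, ∑ j, J i j * t i j : ℝ) : ℂ)) ∂(gaussianCouplings n)
      = Complex.exp (-((∑ i, ∑ j, t i j ^ 2 : ℝ) : ℂ) / 2) := by
  simp only [Gauss_exp_eq]
  rw [Gauss_prod n fun i j x => Complex.exp (Complex.I * t i j * x), ← Gauss_exp_eq']
  simp only [Gauss_one]

theorem integrable_lin_exp_lin (n : ℕ) (c t : Fin n → Fin n → ℝ) :
    Integrable (fun J : Fin n → Fin n → ℝ => ((∑ i, ∑ j, J i j * c i j : ℝ) : ℂ) *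
      Complex.exp (Complex.I * ((∑ i, ∑ j, J i j * t i j : ℝ) : ℂ))) (gaussianCouplings n) := by
  refine Integrable.mul_bdd (c := 1) ?_ (Continuous.aestronglyMeasurable (by fun_prop))
    (Eventually.of_forall fun J => le_of_eq ?_)
  · have h : Integrable (fun J : Fin n → Fin n → ℝ => ∑ i, ∑ j, J i j * c i j)
        (gaussianCouplings n) :=
      integrable_finsetSum _ fun i _ => integrable_finsetSum _ fun j _ =>
        (Gauss_eval_int n i j).mul_const _
    exact h.ofReal
  · rw [mul_comm, Complex.norm_exp_ofReal_mul_I]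

/-- Plan: one-dimensional identity `∫ x e^{ixt} dN(0,1) = i t e^{-t²/2}` (differentiate
`charFun_gaussianReal` under the integral, or grep Mathlib/team library for Gaussian
integration by parts / `iteratedDeriv_charFun`), then for each `(i0, j0)` the integrand
`J i0 j0 * ∏∏ exp` is a product over `(i, j)` of one-variable functions.
Alternative: differentiate `integral_exp_lin n (t + s • c)` in `s` at `0`
(`hasDerivAt_integral_of_dominated_loc_of_deriv_le`). -/
theorem integral_lin_exp_lin (n : ℕ) (c t : Fin n → Fin n → ℝ) :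
    ∫ J, ((∑ i, ∑ j, J i j * c i j : ℝ) : ℂ) *
        Complex.exp (Complex.I * ((∑ i, ∑ j, J i j * t i j : ℝ) : ℂ)) ∂(gaussianCouplings n)
      = Complex.I * ((∑ i, ∑ j, c i j * t i j : ℝ) : ℂ) *
        Complex.exp (-((∑ i, ∑ j, t i j ^ 2 : ℝ) : ℂ) / 2) := by
  have hint : ∀ i j, Integrable (fun J : Fin n → Fin n → ℝ => (c i j : ℂ) * ((J i j : ℂ) *
      Complex.exp (Complex.I * ((∑ i, ∑ j, J i j * t i j : ℝ) : ℂ)))) (gaussianCouplings n) := by
    intro i j
    refine Integrable.const_mul (Integrable.mul_bdd (c := 1) (Gauss_eval_int n i j).ofReal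
      (Continuous.aestronglyMeasurable (by fun_prop))
      (Eventually.of_forall fun J => le_of_eq ?_)) _
    rw [mul_comm, Complex.norm_exp_ofReal_mul_I]
  have h1 : ∀ i0 j0, ∫ J, (J i0 j0 : ℂ) *
      Complex.exp (Complex.I * ((∑ i, ∑ j, J i j * t i j : ℝ) : ℂ)) ∂(gaussianCouplings n) =
      Complex.I * t i0 j0 * Complex.exp (-((∑ i, ∑ j, t i j ^ 2 : ℝ) : ℂ) / 2) := by
    intro i0 j0
    have e : ∀ J : Fin n → Fin n → ℝ, (J i0 j0 : ℂ) *
        Complex.exp (Complex.I * ((∑ i, ∑ j, J i j * t i j : ℝ) : ℂ)) =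
        ∏ i, ∏ j, ((if i = i0 ∧ j = j0 then (J i j : ℂ) else 1) *
          Complex.exp (Complex.I * t i j * J i j)) := fun J => by
      rw [Gauss_exp_eq, Gauss_ite i0 j0 fun i j => (J i j : ℂ)]
    simp only [e]
    rw [Gauss_prod n fun i j x => (if i = i0 ∧ j = j0 then (x : ℂ) else 1) *
      Complex.exp (Complex.I * t i j * x), ← Gauss_exp_eq',
      ← Gauss_ite i0 j0 fun i j => Complex.I * t i j]
    refine Finset.prod_congr rfl fun i _ => Finset.prod_congr rfl fun j _ => ?_
    split_ifs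
    · exact Gauss_one' _
    · simp only [one_mul]
      exact Gauss_one _
  have e : ∀ J : Fin n → Fin n → ℝ, ((∑ i, ∑ j, J i j * c i j : ℝ) : ℂ) *
      Complex.exp (Complex.I * ((∑ i, ∑ j, J i j * t i j : ℝ) : ℂ)) =
      ∑ i, ∑ j, (c i j : ℂ) * ((J i j : ℂ) *
        Complex.exp (Complex.I * ((∑ i, ∑ j, J i j * t i j : ℝ) : ℂ))) := by
    intro J
    generalize Complex.exp (Complex.I * ((∑ i, ∑ j, J i j * t i j : ℝ) : ℂ)) = E
    push_cast
    simp only [Finset.sum_mul]
    exact Finset.sum_congr rfl fun i _ => Finset.sum_congr rfl fun j _ => by ring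
  simp only [e]
  rw [integral_finsetSum _ fun i _ => integrable_finsetSum _ fun j _ => hint i j]
  simp only [integral_finsetSum _ fun j _ => hint _ j, integral_const_mul, h1]
  generalize Complex.exp (-((∑ i, ∑ j, t i j ^ 2 : ℝ) : ℂ) / 2) = E
  push_cast
  simp only [Finset.mul_sum, Finset.sum_mul]
  exact Finset.sum_congr rfl fun i _ => Finset.sum_congr rfl fun j _ => by ring

end Crest.Agent.R339.B
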