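import Crest.Agent.R339.B.Defs

/-! # Row 339, part B: matrix elements as double path sums -/

set_option autoImplicit false

namespace Crest.Agent.R339.B

open MeasureTheory ProbabilityTheory Filter Topology Crest.MathPhysics.SpinGlass

variable {p : ℕ}

/-- reindexing of pairs of families of paths -/
def inner_equiv (N p : ℕ) :
    ((Fin (p + 1) → Fin N → Bool) × (Fin (p + 1) → Fin N → Bool)) ≃ (Fin N → Pth p) where
  toFun w := fun i => (fun k => w.1 k i, fun k => w.2 k i)
  invFun a := (fun k i => (a i).1 k, fun k i => (a i).2 k)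
  left_inv _ := rfl
  right_inv _ := rfl

theorem inner_wt {N : ℕ} (β : Fin p → ℝ) (w' w : Fin (p + 1) → Fin N → Bool) :
    ∏ i, wt β (fun k => w' k i, fun k => w k i) =
      if w' (Fin.last p) = w (Fin.last p) then
        (starRingEnd ℂ) (∏ i, amp β fun k => w' k i) * ∏ i, amp β fun k => w k i else 0 := by
  unfold wt
  rw [Finset.prod_ite_zero, Finset.prod_mul_distrib, map_prod]
  simp only [Finset.mem_univ, true_imp_iff, funext_iff]

/-- Plan: expand both `pathState`s (`map_sum`, `Finset.sum_mul_sum`), sum over `σ`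
(`Finset.sum_ite_eq`), and reindex pairs `(w', w)` of families by
`a i = (fun k => w' k i, fun k => w k i)` (an explicit `Equiv`, `Fintype.sum_equiv` or
`Finset.sum_nbij'`).  The product `∏ i, wt β (a i)` is
`if w' last = w last then conj (∏ amp) * ∏ amp else 0` (`Finset.prod_ite_zero`, `funext_iff`). -/
theorem inner_pathState {N : ℕ} (β : Fin p → ℝ) (D' D : Fin (p + 1) → (Fin N → Bool) → ℂ)
    (W : (Fin N → Bool) → ℂ) :
    ∑ σ, (starRingEnd ℂ) (pathState β D' σ) * W σ * pathState β D σ
      = ∑ a : Fin N → Pth p, (∏ i, wt β (a i)) *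
          ((∏ k, (starRingEnd ℂ) (D' k fun i => (a i).1 k)) * (∏ k, D k fun i => (a i).2 k)
            * W fun i => (a i).2 (Fin.last p)) := by
  rw [← (inner_equiv N p).sum_comp, Fintype.sum_prod_type]
  unfold pathState
  simp only [map_sum, Finset.sum_mul, Finset.mul_sum]
  rw [Finset.sum_comm]
  refine Eq.trans (Finset.sum_congr rfl fun w _ => Finset.sum_comm) ?_
  rw [Finset.sum_comm]
  refine Finset.sum_congr rfl fun w' _ => Finset.sum_congr rfl fun w _ => ?_
  rw [Finset.sum_eq_single (w (Fin.last p))]
  · change _ = (∏ i, wt β (fun k => w' k i, fun k => w k i)) *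
      ((∏ k, (starRingEnd ℂ) (D' k (w' k))) * (∏ k, D k (w k)) * W (w (Fin.last p)))
    rw [inner_wt, if_pos rfl]
    split_ifs with h
    · rw [map_mul, map_prod (starRingEnd ℂ) fun k => D' k (w' k)]
      ring
    · simp
  · intro σ _ h
    rw [if_neg (Ne.symm h), mul_zero]
  · intro h
    exact absurd (Finset.mem_univ _) h

end Crest.Agent.R339.B
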