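import Crest.Agent.R339.B.Defs

/-! # Row 339, part B: causal decomposition of the pair interaction -/

set_option autoImplicit false

namespace Crest.Agent.R339.B

open MeasureTheory ProbabilityTheory Filter Topology Crest.MathPhysics.SpinGlass

variable {p : ℕ}

theorem Lam_sq_sum {n : ℕ} (x : Fin n → ℂ) :
    (∑ k, x k) ^ 2 = ∑ l, x l * (x l + 2 * ∑ m, if m < l then x m else 0) := by
  induction n with
  | zero => simp
  | succ n ih =>
    rw [Fin.sum_univ_castSucc, Fin.sum_univ_castSucc (fun l => x l * _), add_sq,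
      ih fun k => x k.castSucc]
    have h1 : ∀ l : Fin n, (∑ m : Fin (n + 1), if m < l.castSucc then x m else 0)
        = ∑ m : Fin n, if m < l then x m.castSucc else 0 := by
      intro l
      rw [Fin.sum_univ_castSucc, if_neg (not_lt.2 (Fin.le_last _)), add_zero]
      simp only [Fin.castSucc_lt_castSucc_iff]
    have h2 : (∑ m : Fin (n + 1), if m < Fin.last n then x m else 0)
        = ∑ m : Fin n, x m.castSucc := by
      rw [Fin.sum_univ_castSucc, if_neg (lt_irrefl _), add_zero]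
      simp only [Fin.castSucc_lt_last, if_true]
    simp only [h1, h2]
    ring

theorem Lam_xk_right (γ : Fin p → ℝ) (b : Pth p) {s : ℕ} {a c : Pth p} (h : Agree s a c)
    (m : Fin p) (hm : (m : ℕ) < s) : xk γ b a m = xk γ b c m := by
  obtain ⟨h1, h2⟩ := h m.castSucc hm
  simp only [xk, h1, h2]

theorem Lam_xk_left (γ : Fin p → ℝ) (a : Pth p) {s : ℕ} {b c : Pth p} (h : Agree s b c)
    (m : Fin p) (hm : (m : ℕ) < s) : xk γ b a m = xk γ c a m := by
  obtain ⟨h1, h2⟩ := h m.castSucc hm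
  simp only [xk, h1, h2]

/-- `(∑ x)² = ∑ l, x l * (x l + 2 ∑_{m<l} x m)` (induction on `p` with `Fin.sum_univ_castSucc`,
or symmetrise the double sum) -/
theorem lam_eq_sum (γ : Fin p → ℝ) (b a : Pth p) : lam γ b a = ∑ l, qk γ b a l := by
  simp only [lam, qk]
  rw [Lam_sq_sum, ← Finset.sum_div, Finset.sum_neg_distrib]

theorem dep_qk_right (γ : Fin p → ℝ) (b : Pth p) (l : Fin p) :
    Dep ((l : ℕ) + 1) fun a => qk γ b a l := by
  intro a c h
  have h1 : ∀ m : Fin p, (if m < l then xk γ b a m else 0) = if m < l then xk γ b c m else 0 := by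
    intro m
    split_ifs with hm
    · exact Lam_xk_right γ b h m (by rw [Fin.lt_def] at hm; omega)
    · rfl
  simp only [qk, h1, Lam_xk_right γ b h l (Nat.lt_succ_self _)]

theorem dep_qk_left (γ : Fin p → ℝ) (a : Pth p) (l : Fin p) :
    Dep ((l : ℕ) + 1) fun b => qk γ b a l := by
  intro b c h
  have h1 : ∀ m : Fin p, (if m < l then xk γ b a m else 0) = if m < l then xk γ c a m else 0 := by
    intro m
    split_ifs with hm
    · exact Lam_xk_left γ a h m (by rw [Fin.lt_def] at hm; omega)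
    · rfl
  simp only [qk, h1, Lam_xk_left γ a h l (Nat.lt_succ_self _)]

/-- if both paths are diagonal at time `l` then `xk .. l = 0`, hence `qk .. l = 0` -/
theorem qk_eq_zero (γ : Fin p → ℝ) (b a : Pth p) (l : Fin p)
    (hb : b.1 l.castSucc = b.2 l.castSucc) (ha : a.1 l.castSucc = a.2 l.castSucc) :
    qk γ b a l = 0 := by
  have : xk γ b a l = 0 := by simp only [xk, hb, ha, sub_self, mul_zero]
  simp [qk, this]

/-- for `Dep (k+1) g`, `g - g ∘ kap k` lies in `Ideal k` (`dep_kap`, `kap_agree_succ`) -/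
theorem ideal_sub_kap (k : Fin (p + 1)) (g : Pth p → ℂ) (hg : Dep ((k : ℕ) + 1) g) :
    Ideal k fun a => g a - g (kap k a) := by
  refine ⟨fun a c h => ?_, fun a ha => ?_⟩
  · simp only [hg a c h, dep_kap k a c h]
  · simp only [hg _ _ (kap_agree_succ k a ha), sub_self]

/-- Plan: fix `s ≥ k`, `b c`; compare term by term: for `l < s` use `dep_qk_left`; for `l ≥ s`
(so `l ≥ k`) both terms vanish by `qk_eq_zero` and `kap_diag`. -/
theorem causal_lamK (γ : Fin p → ℝ) (k : ℕ) : Causal k (lamK γ k) := by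
  intro s hs b c hbc hb hc
  funext a
  refine Finset.sum_congr rfl fun l _ => ?_
  by_cases hl : (l : ℕ) < s
  · have h := hbc.mono (Nat.succ_le_of_lt hl)
    split_ifs
    · exact dep_qk_left γ a l b c h
    · exact dep_qk_left γ _ l b c h
  · have hk : ¬ (l : ℕ) < k := by omega
    rw [if_neg hk, if_neg hk,
      qk_eq_zero γ b _ l (hb _ (not_lt.1 hl)) (kap_diag l.castSucc a _ le_rfl),
      qk_eq_zero γ c _ l (hc _ (not_lt.1 hl)) (kap_diag l.castSucc a _ le_rfl)]

/-- Plan: `lam b - lamK k b = ∑ l, (if l < k then 0 else fun a => qk b a l - qk b (kap l a) l)`,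
`Finset.sum_induction`, `ideal_sub_kap`, `dep_qk_right`. -/
theorem lam_sub_lamK (γ : Fin p → ℝ) (k : ℕ) (b : Pth p) (P : (Pth p → ℂ) → Prop) (h0 : P 0)
    (hadd : ∀ f g, P f → P g → P (f + g))
    (hI : ∀ l : Fin (p + 1), k ≤ (l : ℕ) → ∀ g, Ideal l g → P g) :
    P (lam γ b - lamK γ k b) := by
  have e : lam γ b - lamK γ k b = ∑ l : Fin p, if (l : ℕ) < k then (0 : Pth p → ℂ) else
      fun a => qk γ b a l - qk γ b (kap l.castSucc a) l := by
    funext a
    rw [Pi.sub_apply, lam_eq_sum, lamK, ← Finset.sum_sub_distrib, Finset.sum_apply]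
    refine Finset.sum_congr rfl fun l _ => ?_
    split_ifs <;> simp
  rw [e]
  refine Finset.sum_induction _ P hadd h0 fun l _ => ?_
  split_ifs with hl
  · exact h0
  · exact hI l.castSucc (not_lt.1 hl) _
      (ideal_sub_kap l.castSucc (fun a => qk γ b a l) (dep_qk_right γ b l))

/-- Plan: `lamK (k+1) b = ∑ l, (fun a => ..)`, `Finset.sum_induction`: the terms `l < k` are `Dep k`
(`dep_qk_right`, `Dep.mono`), the term `l = k` is in `Ideal k` (`dep_qk_right`, `qk_eq_zero`), the
terms `l > k` are `0` (`qk_eq_zero`, `kap_diag`). -/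
theorem lamK_diag (γ : Fin p → ℝ) (k : Fin (p + 1)) (b : Pth p) (hb : Diag k b)
    (P : (Pth p → ℂ) → Prop) (h0 : P 0) (hadd : ∀ f g, P f → P g → P (f + g))
    (hI : ∀ g, Ideal k g → P g) (hD : ∀ g, Dep (k : ℕ) g → P g) :
    P (lamK γ ((k : ℕ) + 1) b) := by
  have e : lamK γ ((k : ℕ) + 1) b = ∑ l : Fin p, fun a =>
      if (l : ℕ) < (k : ℕ) + 1 then qk γ b a l else qk γ b (kap l.castSucc a) l := by
    funext a
    rw [lamK, Finset.sum_apply]
  rw [e]
  refine Finset.sum_induction _ P hadd h0 fun l _ => ?_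
  rcases lt_trichotomy (l : ℕ) k with hl | hl | hl
  · simp only [if_pos (Nat.lt_succ_of_lt hl)]
    exact hD _ ((dep_qk_right γ b l).mono hl)
  · have hk : k = l.castSucc := Fin.ext hl.symm
    subst hk
    simp only [Fin.val_castSucc, Nat.lt_succ_self, if_true]
    exact hI _ ⟨dep_qk_right γ b l, fun a ha => qk_eq_zero γ b a l (hb _ le_rfl) ha⟩
  · have h1 : ¬ (l : ℕ) < (k : ℕ) + 1 := by omega
    have h2 : ∀ a, qk γ b (kap l.castSucc a) l = 0 := fun a =>
      qk_eq_zero γ b _ l (hb _ hl.le) (kap_diag l.castSucc a _ le_rfl)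
    simp only [if_neg h1, h2]
    exact h0

end Crest.Agent.R339.B
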