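import Crest.Agent.R339.B.Collapse
import Crest.Agent.R339.B.Lam

/-! # Row 339, part B: the limiting empirical measure -/

set_option autoImplicit false

namespace Crest.Agent.R339.B

open MeasureTheory ProbabilityTheory Filter Topology Crest.MathPhysics.SpinGlass

variable {p : ℕ}

/-- the part of `quad` whose latest time is `l` -/
noncomputable def NuS_Q (Γ : Fin p → Fin p → ℂ) (b : Pth p) (l : Fin p) : ℂ :=
  -(Γ l l * (1 - sg (b.1 l.castSucc) * sg (b.2 l.castSucc)))
    - ∑ k, if k < l then (sg (b.1 l.castSucc) - sg (b.2 l.castSucc)) *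
      (sg (b.1 k.castSucc) * Γ k l - sg (b.2 k.castSucc) * Γ l k) else 0

theorem NuS_split {n : ℕ} (F : Fin n → Fin n → ℂ) :
    ∑ k, ∑ l, F k l = ∑ l, (F l l + ∑ k, if k < l then F k l + F l k else 0) := by
  have h : ∀ k l, F k l = (if k = l then F k l else 0) + (if k < l then F k l else 0)
      + if l < k then F k l else 0 := by
    intro k l
    rcases lt_trichotomy k l with h | h | h
    · simp [h, h.ne, not_lt.2 h.le]
    · simp [h]
    · simp [h, h.ne', not_lt.2 h.le]
  have h3 : (∑ k, ∑ l, if k < l then F k l else 0) = ∑ l, ∑ k, if k < l then F k l else 0 :=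
    Finset.sum_comm
  calc ∑ k, ∑ l, F k l = ∑ k, ∑ l, ((if k = l then F k l else 0) + (if k < l then F k l else 0)
      + if l < k then F k l else 0) := by simp only [← h]
    _ = (∑ k, F k k) + (∑ l, ∑ k, if k < l then F k l else 0)
      + ∑ k, ∑ l, if l < k then F k l else 0 := by
        simp only [Finset.sum_add_distrib, Finset.sum_ite_eq, Finset.mem_univ, if_true, h3]
    _ = _ := by
        simp only [← Finset.sum_add_distrib, add_assoc]
        refine Finset.sum_congr rfl fun l _ => ?_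
        congr 1
        refine Finset.sum_congr rfl fun k _ => ?_
        split_ifs <;> simp

theorem NuS_quad_eq (Γ : Fin p → Fin p → ℂ) (b : Pth p) :
    quad Γ b.1 b.2 = ∑ l, NuS_Q Γ b l := by
  rw [quad, NuS_split fun k l => sg (b.1 k.castSucc) * sg (b.2 l.castSucc) * Γ k l,
    Finset.sum_comm, ← Finset.sum_neg_distrib, ← Finset.sum_sub_distrib, ← Finset.sum_add_distrib]
  refine Finset.sum_congr rfl fun l _ => ?_
  have : (∑ k, if k < l then (sg (b.1 l.castSucc) - sg (b.2 l.castSucc)) *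
      (sg (b.1 k.castSucc) * Γ k l - sg (b.2 k.castSucc) * Γ l k) else 0)
      = (∑ k, if k < l then sg (b.1 k.castSucc) * sg (b.1 l.castSucc) * Γ k l
          + sg (b.2 k.castSucc) * sg (b.2 l.castSucc) * Γ l k else 0)
        - ∑ k, if k < l then sg (b.1 k.castSucc) * sg (b.2 l.castSucc) * Γ k l
          + sg (b.1 l.castSucc) * sg (b.2 k.castSucc) * Γ l k else 0 := by
    rw [← Finset.sum_sub_distrib]
    refine Finset.sum_congr rfl fun k _ => ?_
    split_ifs
    · ring
    · simp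
  rw [NuS_Q, this]
  ring

/-- Plan: write `quad Γ b.1 b.2 = ∑ l, Q l b` with
`Q l b = -Γ l l * (1 - b'_l b_l) - ∑ k<l, (b'_k (b'_l - b_l) Γ k l + b_k (b_l - b'_l) Γ l k)`
(split the last double sum into `k < l`, `k = l`, `k > l`); `Q l` depends only on the times `≤ l`
and vanishes if `b'_l = b_l` (`sg_mul_self`). -/
theorem causal_quad (Γ : Fin p → Fin p → ℂ) : Causal 0 fun b : Pth p => quad Γ b.1 b.2 := by
  intro s _ b c hbc hb hc
  simp only [NuS_quad_eq]
  refine Finset.sum_congr rfl fun l _ => ?_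
  by_cases hl : (l : ℕ) < s
  · obtain ⟨h1, h2⟩ := hbc l.castSucc hl
    simp only [NuS_Q, h1, h2]
    congr 1
    refine Finset.sum_congr rfl fun k _ => ?_
    split_ifs with hk
    · obtain ⟨h3, h4⟩ := hbc k.castSucc (by rw [Fin.lt_def] at hk; exact lt_trans hk hl)
      rw [h3, h4]
    · rfl
  · have h1 := hb l.castSucc (not_lt.1 hl)
    have h2 := hc l.castSucc (not_lt.1 hl)
    simp [NuS_Q, h1, h2, sg_mul_self]

theorem nuS_add (γ β : Fin p → ℝ) (G : Fin (p + 1) → Fin (p + 1) → ℂ) (g g' : Pth p → ℂ) :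
    nuS γ β G (g + g') = nuS γ β G g + nuS γ β G g' := by
  simp only [nuS, Pi.add_apply, add_mul, mul_add, Finset.sum_add_distrib]

theorem nuS_zero (γ β : Fin p → ℝ) (G : Fin (p + 1) → Fin (p + 1) → ℂ) :
    nuS γ β G 0 = 0 := by
  simp [nuS]

/-- Plan: `sum_wt_eq_zero` with `k`, `Dep.causal`, `causal_quad`, `Causal.mul`. -/
theorem nuS_ideal (γ β : Fin p → ℝ) (G : Fin (p + 1) → Fin (p + 1) → ℂ) (k : Fin (p + 1))
    (g : Pth p → ℂ) (hg : Ideal k g) : nuS γ β G g = 0 := by
  refine sum_wt_eq_zero β k (Nat.lt_succ_iff.1 k.isLt) _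
    (hg.1.causal.mul (((causal_quad _).mono (Nat.zero_le _)).comp Complex.exp)) fun b hb => ?_
  rw [hg.2 b (hb k le_rfl), zero_mul]

/-- the self-consistency equation (`Fintype.sum_prod_type`, unfold `psiGen`, `wt`, `Gam`) -/
theorem nuS_bra_ket {γ β : Fin p → ℝ} {G : Fin (p + 1) → Fin (p + 1) → ℂ} (hG : IsGram γ β G)
    (s t : Fin (p + 1)) : nuS γ β G (fun a => sg (a.1 s) * sg (a.2 t)) = G s t := by
  rw [hG.2.2 s t, psiGen, nuS, Fintype.sum_prod_type]
  refine Finset.sum_congr rfl fun a' _ => Finset.sum_congr rfl fun a _ => ?_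
  simp only [wt]
  split_ifs
  · change _ = _ * Complex.exp (quad (Gam γ G) a' a)
    ring
  · simp

theorem NuS_const_mul (γ β : Fin p → ℝ) (G : Fin (p + 1) → Fin (p + 1) → ℂ) (c : ℂ)
    (g : Pth p → ℂ) : nuS γ β G (fun a => c * g a) = c * nuS γ β G g := by
  simp only [nuS, Finset.mul_sum]
  exact Finset.sum_congr rfl fun b _ => by ring

theorem NuS_add' (γ β : Fin p → ℝ) (G : Fin (p + 1) → Fin (p + 1) → ℂ) (g g' : Pth p → ℂ) :
    nuS γ β G (fun a => g a + g' a) = nuS γ β G g + nuS γ β G g' := nuS_add γ β G g g'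

theorem NuS_sum {ι : Type*} (γ β : Fin p → ℝ) (G : Fin (p + 1) → Fin (p + 1) → ℂ) (s : Finset ι)
    (g : ι → Pth p → ℂ) : nuS γ β G (fun a => ∑ i ∈ s, g i a) = ∑ i ∈ s, nuS γ β G (g i) := by
  simp only [nuS, Finset.sum_mul, Finset.mul_sum]
  exact Finset.sum_comm

/-- `nuS_bra_ket` at `s = t = last` (on the support of `wt`, `a.1 last = a.2 last`) -/
theorem nuS_const {γ β : Fin p → ℝ} {G : Fin (p + 1) → Fin (p + 1) → ℂ} (hG : IsGram γ β G)
    (c : ℂ) : nuS γ β G (fun _ => c) = c := by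
  have h1 : nuS γ β G (fun _ => 1) = 1 := by
    have h2 := nuS_bra_ket hG (Fin.last p) (Fin.last p)
    rw [hG.1] at h2
    refine Eq.trans ?_ h2
    refine Finset.sum_congr rfl fun b _ => ?_
    simp only [wt]
    split_ifs with h
    · rw [h, sg_mul_self]
    · simp
  have := NuS_const_mul γ β G c fun _ => 1
  simpa [h1] using this

/-- the difference with `sg (a.1 s) * sg (a.2 t)` lies in `Ideal t` -/
theorem nuS_bra_bra {γ β : Fin p → ℝ} {G : Fin (p + 1) → Fin (p + 1) → ℂ} (hG : IsGram γ β G)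
    (s t : Fin (p + 1)) (hst : s ≤ t) :
    nuS γ β G (fun a => sg (a.1 s) * sg (a.1 t)) = G s t := by
  have hI : Ideal t fun a : Pth p => sg (a.1 s) * (sg (a.1 t) - sg (a.2 t)) := by
    refine ⟨fun a c h => ?_, fun a ha => by simp [ha]⟩
    obtain ⟨h1, -⟩ := h s (Nat.lt_succ_of_le hst)
    obtain ⟨h2, h3⟩ := h t (Nat.lt_succ_self _)
    simp only [h1, h2, h3]
  have h := NuS_add' γ β G (fun a => sg (a.1 s) * sg (a.2 t))
    fun a => sg (a.1 s) * (sg (a.1 t) - sg (a.2 t))
  rw [nuS_ideal γ β G t _ hI, nuS_bra_ket hG, add_zero] at h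
  rw [← h]
  congr 1
  funext a
  ring

theorem nuS_ket_ket {γ β : Fin p → ℝ} {G : Fin (p + 1) → Fin (p + 1) → ℂ} (hG : IsGram γ β G)
    (s t : Fin (p + 1)) (hst : s ≤ t) :
    nuS γ β G (fun a => sg (a.2 s) * sg (a.2 t)) = G t s := by
  have hI : Ideal t fun a : Pth p => sg (a.2 s) * (sg (a.2 t) - sg (a.1 t)) := by
    refine ⟨fun a c h => ?_, fun a ha => by simp [ha]⟩
    obtain ⟨-, h1⟩ := h s (Nat.lt_succ_of_le hst)
    obtain ⟨h2, h3⟩ := h t (Nat.lt_succ_self _)
    simp only [h1, h2, h3]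
  have h := NuS_add' γ β G (fun a => sg (a.1 t) * sg (a.2 s))
    fun a => sg (a.2 s) * (sg (a.2 t) - sg (a.1 t))
  rw [nuS_ideal γ β G t _ hI, nuS_bra_ket hG, add_zero] at h
  rw [← h]
  congr 1
  funext a
  ring

theorem NuS_xx {γ β : Fin p → ℝ} {G : Fin (p + 1) → Fin (p + 1) → ℂ} (hG : IsGram γ β G)
    (b : Pth p) (m l : Fin p) (hml : m ≤ l) :
    nuS γ β G (fun a => xk γ b a m * xk γ b a l) = (γ m : ℂ) * γ l *
      ((sg (b.1 l.castSucc) - sg (b.2 l.castSucc)) *
        (sg (b.1 m.castSucc) * G m.castSucc l.castSucc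
          - sg (b.2 m.castSucc) * G l.castSucc m.castSucc)) := by
  have hle : m.castSucc ≤ l.castSucc := Fin.castSucc_le_castSucc_iff.2 hml
  have e : (fun a => xk γ b a m * xk γ b a l) = fun a : Pth p =>
      ((γ m : ℂ) * γ l * sg (b.1 m.castSucc) * sg (b.1 l.castSucc)) *
          (sg (a.1 m.castSucc) * sg (a.1 l.castSucc))
        + (-((γ m : ℂ) * γ l * sg (b.1 m.castSucc) * sg (b.2 l.castSucc))) *
          (sg (a.1 m.castSucc) * sg (a.2 l.castSucc))
        + (-((γ m : ℂ) * γ l * sg (b.2 m.castSucc) * sg (b.1 l.castSucc))) *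
          (sg (a.1 l.castSucc) * sg (a.2 m.castSucc))
        + ((γ m : ℂ) * γ l * sg (b.2 m.castSucc) * sg (b.2 l.castSucc)) *
          (sg (a.2 m.castSucc) * sg (a.2 l.castSucc)) := by
    funext a
    simp only [xk]
    ring
  rw [e, NuS_add', NuS_add', NuS_add', NuS_const_mul, NuS_const_mul, NuS_const_mul, NuS_const_mul,
    nuS_bra_bra hG _ _ hle, nuS_bra_ket hG, nuS_bra_ket hG, nuS_ket_ket hG _ _ hle]
  ring

/-- Plan: `lam γ b a = -(1/2) ∑ k l, γ k γ l (b'_k a'_k - b_k a_k) (b'_l a'_l - b_l a_l)`;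
`nuS` is linear; evaluate the four products with `nuS_bra_bra`, `nuS_ket_ket`, `nuS_bra_ket`
(cases `k < l`, `k = l`, `l < k`; `G t t = 1`, `sg_mul_self`).  It may be easier to start from
`lam_eq_sum` and the decomposition `quad = ∑ l, Q l` of `causal_quad`, term by term in `l`. -/
theorem nuS_lam {γ β : Fin p → ℝ} {G : Fin (p + 1) → Fin (p + 1) → ℂ} (hG : IsGram γ β G)
    (b : Pth p) : nuS γ β G (lam γ b) = quad (Gam γ G) b.1 b.2 := by
  have e : lam γ b = fun a => ∑ l, qk γ b a l := funext fun a => lam_eq_sum γ b a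
  rw [e, NuS_sum, NuS_quad_eq]
  refine Finset.sum_congr rfl fun l _ => ?_
  have e2 : (fun a => qk γ b a l) = fun a => (-1 / 2) * (xk γ b a l * xk γ b a l)
      + ∑ m, (if m < l then -1 else 0) * (xk γ b a m * xk γ b a l) := by
    funext a
    have : (∑ m, (if m < l then -1 else 0) * (xk γ b a m * xk γ b a l))
        = -(xk γ b a l * ∑ m, if m < l then xk γ b a m else 0) := by
      rw [Finset.mul_sum, ← Finset.sum_neg_distrib]
      refine Finset.sum_congr rfl fun m _ => ?_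
      split_ifs
      · ring
      · simp
    rw [this, qk]
    ring
  rw [e2, NuS_add', NuS_sum, NuS_const_mul, NuS_xx hG b l l le_rfl, NuS_Q,
    sub_eq_add_neg _ (Finset.sum _ _), ← Finset.sum_neg_distrib]
  congr 1
  · simp only [Gam, hG.1]
    linear_combination (-1 / 2 * (γ l : ℂ) * γ l) * sg_mul_self (b.1 l.castSucc)
      + (-1 / 2 * (γ l : ℂ) * γ l) * sg_mul_self (b.2 l.castSucc)
  · refine Finset.sum_congr rfl fun m _ => ?_
    rw [NuS_const_mul]
    split_ifs with hm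
    · rw [NuS_xx hG b m l hm.le]
      simp only [Gam]
      ring
    · simp

end Crest.Agent.R339.B
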