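import Crest.Agent.R339.B.Adm
import Crest.Agent.R339.B.Bound
import Crest.Agent.R339.B.Cavity
import Crest.Agent.R339.B.NuS

/-! # Row 339, part B: the large `N` limit of the generating functional -/

set_option autoImplicit false

namespace Crest.Agent.R339.B

open MeasureTheory ProbabilityTheory Filter Topology Crest.MathPhysics.SpinGlass

variable {p : ℕ}

theorem exists_bound (g : Pth p → ℂ) : ∃ r : ℝ, ∀ b, ‖g b‖ ≤ r :=
  ⟨∑ b, ‖g b‖, fun b => Finset.single_le_sum (f := fun b => ‖g b‖) (fun _ _ => norm_nonneg _)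
    (Finset.mem_univ b)⟩

theorem ZZ_bdd (γ β : Fin p → ℝ) (r : ℝ) :
    ∃ C : ℝ, ∀ᶠ x in adm, ∀ l : Pth p → ℂ, (∀ b, ‖l b‖ ≤ r) → ‖ZZ γ β x.1 x.2 l‖ ≤ C := by
  refine ⟨Real.exp (2 * (Fintype.card (Pth p) * Real.exp (2 * r))), ?_⟩
  filter_upwards [adm_nonneg, adm_le_one,
    adm_mul.eventually (gt_mem_nhds (one_lt_two (α := ℝ)))] with x h0 h1 h2 l hl
  refine (ZZ_bound γ β x.1 h0 h1 l hl).trans (Real.exp_le_exp.2 ?_)
  exact mul_le_mul_of_nonneg_right h2.le (by positivity)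

theorem DD_bdd (γ β : Fin p → ℝ) (g : Pth p → ℂ) (r : ℝ) :
    ∃ C : ℝ, ∀ᶠ x in adm, ∀ l : Pth p → ℂ, (∀ b, ‖l b‖ ≤ r) → ‖DD γ β x.1 x.2 g l‖ ≤ C := by
  obtain ⟨r', hr'⟩ : ∃ r' : ℝ, ∀ b a, ‖lam γ b a‖ ≤ r' := by
    refine ⟨∑ b, ∑ a, ‖lam γ b a‖, fun b a => ?_⟩
    calc ‖lam γ b a‖ ≤ ∑ a, ‖lam γ b a‖ :=
          Finset.single_le_sum (f := fun a => ‖lam γ b a‖) (fun _ _ => norm_nonneg _)
            (Finset.mem_univ a)
      _ ≤ _ := Finset.single_le_sum (f := fun b => ∑ a, ‖lam γ b a‖)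
            (fun _ _ => Finset.sum_nonneg fun _ _ => norm_nonneg _) (Finset.mem_univ b)
  obtain ⟨C, hC⟩ := ZZ_bdd γ β (r + r')
  refine ⟨2 * ∑ b, ‖wt β b‖ * (‖g b‖ * (Real.exp r * C)), ?_⟩
  refine eventually_of_succ (P := fun N ε => ∀ l : Pth p → ℂ, (∀ b, ‖l b‖ ≤ r) →
    ‖DD γ β N ε g l‖ ≤ 2 * ∑ b, ‖wt β b‖ * (‖g b‖ * (Real.exp r * C))) ?_
  filter_upwards [hC, adm_nonneg, adm_le_one,
    adm_succ_mul.eventually (gt_mem_nhds (one_lt_two (α := ℝ)))] with x hx h0 h1 h2 l hl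
  rw [DD_succ, norm_mul]
  refine mul_le_mul ?_ ((norm_sum_le _ _).trans (Finset.sum_le_sum fun b _ => ?_))
    (norm_nonneg _) (by norm_num)
  · rw [Complex.norm_real, Real.norm_of_nonneg (by positivity)]
    exact h2.le
  · rw [norm_mul, norm_mul, norm_mul]
    have hz : ‖ZZ γ β x.1 x.2 (l + lam γ b)‖ ≤ C :=
      hx _ fun a => (norm_add_le _ _).trans (add_le_add (hl a) (hr' b a))
    have he : ‖Complex.exp (x.2 * l b)‖ ≤ Real.exp r := by
      refine (Complex.norm_exp_le_exp_norm _).trans (Real.exp_le_exp.2 ?_)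
      rw [norm_mul, Complex.norm_real, Real.norm_of_nonneg h0]
      calc x.2 * ‖l b‖ ≤ 1 * ‖l b‖ := mul_le_mul_of_nonneg_right h1 (norm_nonneg _)
        _ ≤ r := by rw [one_mul]; exact hl b
    gcongr

/-- a null function times a value of the generating functional is null -/
theorem null_mul_ZZ (γ β : Fin p → ℝ) {u : ℕ × ℝ → ℂ} (hu : Tendsto u adm (𝓝 0))
    (l : Pth p → ℂ) : Tendsto (fun x => u x * ZZ γ β x.1 x.2 l) adm (𝓝 0) := by
  obtain ⟨r, hr⟩ := exists_bound l
  obtain ⟨C, hC⟩ := ZZ_bdd γ β r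
  refine hu.zero_mul_isBoundedUnder_le ⟨C, ?_⟩
  rw [eventually_map]
  filter_upwards [hC] with x hx
  exact hx l hr

/-- `g` behaves asymptotically like the constant `nuS g` -/
def Good (γ β : Fin p → ℝ) (G : Fin (p + 1) → Fin (p + 1) → ℂ) (g : Pth p → ℂ) : Prop :=
  ∀ l : Pth p → ℂ, Tendsto
    (fun x : ℕ × ℝ => DD γ β x.1 x.2 g l - nuS γ β G g * ZZ γ β x.1 x.2 l) adm (𝓝 0)

variable {γ β : Fin p → ℝ} {G : Fin (p + 1) → Fin (p + 1) → ℂ}

theorem Good.add {g g' : Pth p → ℂ} (h : Good γ β G g) (h' : Good γ β G g') :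
    Good γ β G (g + g') := by
  intro l
  have := (h l).add (h' l)
  rw [add_zero] at this
  refine this.congr fun x => ?_
  rw [DD_add, nuS_add]; ring

theorem good_const (hG : IsGram γ β G) (c : ℂ) : Good γ β G fun _ => c := by
  intro l
  have h1 : Tendsto (fun x : ℕ × ℝ => c * (((x.2 * (x.1 : ℝ) : ℝ) : ℂ) - 1)) adm (𝓝 0) := by
    have := (((Complex.continuous_ofReal.tendsto 1).comp adm_mul).sub_const 1).const_mul c
    simpa using this
  refine (null_mul_ZZ γ β h1 l).congr fun x => ?_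
  rw [DD_const, nuS_const hG]; ring

theorem good_zero (hG : IsGram γ β G) : Good γ β G 0 := good_const hG 0

theorem Good.exp {δ : Pth p → ℂ} (hδ : Good γ β G δ) (l : Pth p → ℂ) :
    Tendsto (fun x : ℕ × ℝ => ZZ γ β x.1 x.2 (l + δ)
      - Complex.exp (nuS γ β G δ) * ZZ γ β x.1 x.2 l) adm (𝓝 0) := by
  set c := nuS γ β G δ with hc
  obtain ⟨r, hr⟩ := exists_bound l
  obtain ⟨r', hr'⟩ := exists_bound δ
  obtain ⟨C, hC⟩ := ZZ_bdd γ β (r + r')
  obtain ⟨C', hC'⟩ := DD_bdd γ β δ (r + r')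
  let L : ℝ → Pth p → ℂ := fun s b => l b + (s : ℂ) * δ b
  let φ' : ℕ × ℝ → ℝ → ℂ := fun x s => Complex.exp (-(s * c)) *
    (DD γ β x.1 x.2 δ (L s) - c * ZZ γ β x.1 x.2 (L s))
  have hder : ∀ (x : ℕ × ℝ) (s : ℝ), HasDerivAt
      (fun s : ℝ => Complex.exp (-(s * c)) * ZZ γ β x.1 x.2 (L s)) (φ' x s) s := by
    intro x s
    have h1 : HasDerivAt (fun s : ℝ => Complex.exp (-(s * c))) (Complex.exp (-(s * c)) * (-c)) s := by
      have : HasDerivAt (fun s : ℝ => -((s : ℂ) * c)) (-c) s := by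
        have := ((Complex.ofRealCLM.hasDerivAt (x := s)).mul_const c).fun_neg
        simpa using this
      exact this.cexp
    have h2 := h1.fun_mul (hasDerivAt_ZZ γ β x.1 x.2 l δ s)
    refine h2.congr_deriv ?_
    simp only [φ', L]; ring
  have hcont : ∀ x : ℕ × ℝ, Continuous (φ' x) := by
    intro x
    have h1 : Continuous fun s : ℝ => ZZ γ β x.1 x.2 (L s) :=
      continuous_iff_continuousAt.2 fun s => (hasDerivAt_ZZ γ β x.1 x.2 l δ s).continuousAt
    have h2 : Continuous fun s : ℝ => DD γ β x.1 x.2 δ (L s) := continuous_DD γ β x.1 x.2 δ l δ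
    exact (Complex.continuous_exp.comp (by fun_prop)).mul (h2.sub (h1.const_mul c))
  have hint : ∀ x : ℕ × ℝ, ∫ s in (0 : ℝ)..1, φ' x s
      = Complex.exp (-c) * ZZ γ β x.1 x.2 (l + δ) - ZZ γ β x.1 x.2 l := by
    intro x
    rw [intervalIntegral.integral_eq_sub_of_hasDerivAt (fun s _ => hder x s)
      ((hcont x).intervalIntegrable _ _)]
    have e1 : L 1 = l + δ := by funext b; simp [L]
    have e0 : L 0 = l := by funext b; simp [L]
    simp [e1, e0]
  have hlim : Tendsto (fun x => ∫ s in (0 : ℝ)..1, φ' x s) adm (𝓝 (∫ _ in (0 : ℝ)..1, (0 : ℂ))) := by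
    refine intervalIntegral.tendsto_integral_filter_of_dominated_convergence
      (fun _ => Real.exp ‖c‖ * (C' + ‖c‖ * C))
      (Eventually.of_forall fun x => (hcont x).aestronglyMeasurable) ?_
      intervalIntegrable_const (Eventually.of_forall fun s _ => ?_)
    · filter_upwards [hC, hC'] with x hx hx'
      refine Eventually.of_forall fun s hs => ?_
      rw [Set.uIoc_of_le zero_le_one] at hs
      have hL : ∀ b, ‖L s b‖ ≤ r + r' := by
        intro b
        refine (norm_add_le _ _).trans (add_le_add (hr b) ?_)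
        rw [norm_mul, Complex.norm_real, Real.norm_of_nonneg hs.1.le]
        calc s * ‖δ b‖ ≤ 1 * ‖δ b‖ := mul_le_mul_of_nonneg_right hs.2 (norm_nonneg _)
          _ ≤ r' := by rw [one_mul]; exact hr' b
      have he : ‖Complex.exp (-(s * c))‖ ≤ Real.exp ‖c‖ := by
        refine (Complex.norm_exp_le_exp_norm _).trans (Real.exp_le_exp.2 ?_)
        rw [norm_neg, norm_mul, Complex.norm_real, Real.norm_of_nonneg hs.1.le]
        calc s * ‖c‖ ≤ 1 * ‖c‖ := mul_le_mul_of_nonneg_right hs.2 (norm_nonneg _)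
          _ = ‖c‖ := one_mul _
      simp only [φ']
      rw [norm_mul]
      refine mul_le_mul he ((norm_sub_le _ _).trans (add_le_add (hx' _ hL) ?_))
        (norm_nonneg _) (Real.exp_pos _).le
      rw [norm_mul]
      exact mul_le_mul_of_nonneg_left (hx _ hL) (norm_nonneg _)
    · have := (hδ (L s)).const_mul (Complex.exp (-(s * c)))
      rw [mul_zero] at this
      exact this
  simp only [hint, intervalIntegral.integral_zero] at hlim
  have := hlim.const_mul (Complex.exp c)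
  rw [mul_zero] at this
  refine this.congr fun x => ?_
  rw [mul_sub, ← mul_assoc, ← Complex.exp_add, add_neg_cancel, Complex.exp_zero, one_mul]

theorem nuS_lamK (hG : IsGram γ β G) (k : ℕ) (b : Pth p) :
    nuS γ β G (lamK γ k b) = quad (Gam γ G) b.1 b.2 := by
  have h0 : nuS γ β G (lam γ b - lamK γ k b) = 0 :=
    lam_sub_lamK γ k b (fun g => nuS γ β G g = 0) (nuS_zero γ β G)
      (fun f g hf hg => by rw [nuS_add, hf, hg, add_zero])
      (fun l _ g hg => nuS_ideal γ β G l g hg)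
  have h1 := nuS_add γ β G (lamK γ k b) (lam γ b - lamK γ k b)
  rw [add_sub_cancel, h0, add_zero, nuS_lam hG] at h1
  exact h1.symm

/-- the cavity identity, asymptotically, after the collapse at time `k` -/
theorem cav (hG : IsGram γ β G) (k : Fin (p + 1))
    (hI : ∀ l : Fin (p + 1), (k : ℕ) + 1 ≤ (l : ℕ) → ∀ g, Ideal l g → Good γ β G g)
    (g : Pth p → ℂ) (hg : Dep ((k : ℕ) + 1) g) (l : Pth p → ℂ) :
    Tendsto (fun x : ℕ × ℝ => DD γ β (x.1 + 1) x.2 g l - ∑ b, wt β b * (g (kap k b) *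
      ZZ γ β x.1 x.2 (l + lamK γ ((k : ℕ) + 1) (kap k b)))) adm (𝓝 0) := by
  have hcol : ∀ x : ℕ × ℝ, ∑ b, wt β b * (g (kap k b) *
      ZZ γ β x.1 x.2 (l + lamK γ ((k : ℕ) + 1) (kap k b)))
      = ∑ b, wt β b * (g b * ZZ γ β x.1 x.2 (l + lamK γ ((k : ℕ) + 1) b)) := fun x =>
    (collapse β k (fun b => g b * ZZ γ β x.1 x.2 (l + lamK γ ((k : ℕ) + 1) b))
      (hg.causal.mul ((causal_lamK γ _).comp fun m => ZZ γ β x.1 x.2 (l + m)))).symm
  have hb : ∀ b : Pth p, Tendsto (fun x : ℕ × ℝ => wt β b * (g b *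
      ((((x.2 * ((x.1 + 1 : ℕ) : ℝ) : ℝ) : ℂ) * Complex.exp (x.2 * l b) - 1) *
          ZZ γ β x.1 x.2 (l + lam γ b)
        + (ZZ γ β x.1 x.2 (l + lam γ b) - ZZ γ β x.1 x.2 (l + lamK γ ((k : ℕ) + 1) b))))) adm
      (𝓝 0) := by
    intro b
    have h1 : Tendsto (fun x : ℕ × ℝ =>
        ((x.2 * ((x.1 + 1 : ℕ) : ℝ) : ℝ) : ℂ) * Complex.exp (x.2 * l b) - 1) adm (𝓝 0) := by
      have a1 := (Complex.continuous_ofReal.tendsto 1).comp adm_succ_mul
      have a2 := (Complex.continuous_exp.tendsto _).comp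
        (((Complex.continuous_ofReal.tendsto 0).comp adm_eps).mul_const (l b))
      have := (a1.mul a2).sub_const 1
      simpa using this
    have hδ : Good γ β G (lam γ b - lamK γ ((k : ℕ) + 1) b) :=
      lam_sub_lamK γ _ b (Good γ β G) (good_zero hG) (fun _ _ => Good.add) hI
    have h0 : nuS γ β G (lam γ b - lamK γ ((k : ℕ) + 1) b) = 0 :=
      lam_sub_lamK γ _ b (fun g => nuS γ β G g = 0) (nuS_zero γ β G)
        (fun f g hf hg => by rw [nuS_add, hf, hg, add_zero])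
        (fun l _ g hg => nuS_ideal γ β G l g hg)
    have h2 := hδ.exp (l + lamK γ ((k : ℕ) + 1) b)
    rw [h0, Complex.exp_zero, add_assoc, add_sub_cancel] at h2
    simp only [one_mul] at h2
    have := (((null_mul_ZZ γ β h1 (l + lam γ b)).add h2).const_mul (g b)).const_mul (wt β b)
    simpa using this
  have := tendsto_finsetSum Finset.univ fun b _ => hb b
  rw [Finset.sum_const_zero] at this
  refine this.congr fun x => ?_
  rw [hcol, DD_succ, Finset.mul_sum, ← Finset.sum_sub_distrib]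
  refine Finset.sum_congr rfl fun b _ => ?_
  ring

/-- downward induction -/
theorem good_ideal (hG : IsGram γ β G) (k : Fin (p + 1)) (g : Pth p → ℂ) (hg : Ideal k g) :
    Good γ β G g := by
  suffices H : ∀ j : ℕ, ∀ k : Fin (p + 1), p + 1 ≤ (k : ℕ) + j → ∀ g, Ideal k g → Good γ β G g from
    H (p + 1) k (by omega) g hg
  intro j
  induction j with
  | zero => intro k hk; have := k.isLt; omega
  | succ j ih =>
    intro k hk g hg l
    have h1 := cav hG k (fun l' hl' => ih l' (by omega)) g hg.1 l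
    have h2 : ∀ b : Pth p, g (kap k b) = 0 := fun b => hg.2 _ (kap_diag k b k le_rfl)
    simp only [h2, zero_mul, mul_zero, Finset.sum_const_zero, sub_zero] at h1
    have h3 := tendsto_of_succ (F := fun N ε => DD γ β N ε g l) h1
    simpa [nuS_ideal γ β G k g hg] using h3

theorem step (hG : IsGram γ β G) (k : Fin (p + 1)) (hD : ∀ g, Dep (k : ℕ) g → Good γ β G g)
    (g : Pth p → ℂ) (hg : Dep ((k : ℕ) + 1) g) (l : Pth p → ℂ) :
    Tendsto (fun x : ℕ × ℝ => DD γ β (x.1 + 1) x.2 g l - nuS γ β G g * ZZ γ β x.1 x.2 l) adm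
      (𝓝 0) := by
  have h1 := cav hG k (fun l' _ => good_ideal hG l') g hg l
  have hn : nuS γ β G g = ∑ b, wt β b * (g (kap k b) *
      Complex.exp (nuS γ β G (lamK γ ((k : ℕ) + 1) (kap k b)))) := by
    rw [← collapse β k (fun b => g b * Complex.exp (nuS γ β G (lamK γ ((k : ℕ) + 1) b)))
      (hg.causal.mul ((causal_lamK γ _).comp fun m => Complex.exp (nuS γ β G m)))]
    simp only [nuS_lamK hG]
    rfl
  have hb : ∀ b : Pth p, Tendsto (fun x : ℕ × ℝ => wt β b * (g (kap k b) *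
      (ZZ γ β x.1 x.2 (l + lamK γ ((k : ℕ) + 1) (kap k b))
        - Complex.exp (nuS γ β G (lamK γ ((k : ℕ) + 1) (kap k b))) * ZZ γ β x.1 x.2 l))) adm
      (𝓝 0) := by
    intro b
    have hδ : Good γ β G (lamK γ ((k : ℕ) + 1) (kap k b)) :=
      lamK_diag γ k _ (kap_diag k b) (Good γ β G) (good_zero hG) (fun _ _ => Good.add)
        (good_ideal hG k) hD
    have := ((hδ.exp l).const_mul (g (kap k b))).const_mul (wt β b)
    simpa using this
  have := h1.add (tendsto_finsetSum Finset.univ fun b _ => hb b)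
  rw [Finset.sum_const_zero, add_zero] at this
  refine this.congr fun x => ?_
  rw [hn, Finset.sum_mul, sub_add, ← Finset.sum_sub_distrib]
  congr 1
  refine Finset.sum_congr rfl fun b _ => ?_
  ring

theorem good_dep_zero (hG : IsGram γ β G) (g : Pth p → ℂ) (hg : Dep 0 g) : Good γ β G g := by
  have : g = fun _ => g (fun _ => false, fun _ => false) :=
    funext fun b => hg _ _ fun t ht => absurd ht (Nat.not_lt_zero _)
  rw [this]
  exact good_const hG _

theorem ZZ_shift (hG : IsGram γ β G) (l : Pth p → ℂ) :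
    Tendsto (fun x : ℕ × ℝ => ZZ γ β (x.1 + 1) x.2 l - ZZ γ β x.1 x.2 l) adm (𝓝 0) := by
  have h1 := step hG 0 (fun g hg => good_dep_zero hG g hg) (fun _ => 1) (fun _ _ _ => rfl) l
  have h2 := (good_const hG 1 l).comp adm_succ
  have := h1.sub h2
  rw [sub_zero] at this
  refine this.congr fun x => ?_
  simp only [Function.comp, nuS_const hG]
  ring

/-- upward induction -/
theorem good_dep (hG : IsGram γ β G) (k : ℕ) (hk : k ≤ p + 1) (g : Pth p → ℂ) (hg : Dep k g) :
    Good γ β G g := by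
  induction k generalizing g with
  | zero => exact good_dep_zero hG g hg
  | succ k ih =>
    intro l
    have h1 := step hG ⟨k, by omega⟩ (fun g hg => ih (by omega) g hg) g hg l
    have h2 := h1.sub ((ZZ_shift hG l).const_mul (nuS γ β G g))
    rw [mul_zero, sub_zero] at h2
    refine tendsto_of_succ (F := fun N ε => DD γ β N ε g l - nuS γ β G g * ZZ γ β N ε l)
      (h2.congr fun x => ?_)
    ring

theorem good_all (hG : IsGram γ β G) (g : Pth p → ℂ) : Good γ β G g :=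
  good_dep hG (p + 1) le_rfl g (dep_top g)

theorem ZZ_lim (hG : IsGram γ β G) (l : Pth p → ℂ) :
    Tendsto (fun x : ℕ × ℝ => ZZ γ β x.1 x.2 l) adm (𝓝 (Complex.exp (nuS γ β G l))) := by
  have h1 := ((good_all hG l).exp 0).add_const (Complex.exp (nuS γ β G l))
  rw [zero_add, zero_add] at h1
  refine h1.congr' ?_
  filter_upwards [adm_nonneg] with x hx
  have : ZZ γ β x.1 x.2 0 = 1 := by
    rw [← mm_one γ β x.1 hx]
    simp [ZZ, nu]
  rw [this]; ring

theorem DD_lim (hG : IsGram γ β G) (g l : Pth p → ℂ) :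
    Tendsto (fun x : ℕ × ℝ => DD γ β x.1 x.2 g l) adm
      (𝓝 (nuS γ β G g * Complex.exp (nuS γ β G l))) := by
  have h1 := (good_all hG g l).add ((ZZ_lim hG l).const_mul (nuS γ β G g))
  rw [zero_add] at h1
  refine h1.congr fun x => ?_
  ring

theorem sq_lim (hG : IsGram γ β G) (g : Pth p → ℂ) :
    Tendsto (fun x : ℕ × ℝ => mm γ β x.1 x.2 fun a => nu x.2 g a ^ 2) adm
      (𝓝 (nuS γ β G g ^ 2)) := by
  refine tendsto_of_succ (F := fun N ε => mm γ β N ε fun a => nu ε g a ^ 2) ?_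
  simp only [sq_succ]
  have a1 := (Complex.continuous_ofReal.tendsto 1).comp adm_succ_mul
  have a2 := (Complex.continuous_ofReal.tendsto 0).comp adm_eps
  have hb : ∀ b : Pth p, Tendsto (fun x : ℕ × ℝ => wt β b * (g b * (DD γ β x.1 x.2 g (lam γ b)
      + x.2 * g b * ZZ γ β x.1 x.2 (lam γ b)))) adm
      (𝓝 (wt β b * (g b * (nuS γ β G g * Complex.exp (nuS γ β G (lam γ b))
        + ((0 : ℝ) : ℂ) * g b * Complex.exp (nuS γ β G (lam γ b)))))) := fun b =>
    (((DD_lim hG g _).add ((a2.mul_const (g b)).mul (ZZ_lim hG _))).const_mul _).const_mul _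
  have := a1.mul (tendsto_finsetSum Finset.univ fun b _ => hb b)
  have e : nuS γ β G g ^ 2 = ((1 : ℝ) : ℂ) * ∑ b : Pth p, wt β b * (g b * (nuS γ β G g *
      Complex.exp (nuS γ β G (lam γ b))
        + ((0 : ℝ) : ℂ) * g b * Complex.exp (nuS γ β G (lam γ b)))) := ?_
  · rw [e]; exact this
  simp only [nuS_lam hG, Complex.ofReal_one, one_mul, Complex.ofReal_zero, zero_mul, add_zero]
  rw [pow_two]
  conv_lhs => rw [show nuS γ β G g * nuS γ β G g = nuS γ β G g *
    ∑ b : Pth p, wt β b * (g b * Complex.exp (quad (Gam γ G) b.1 b.2)) from rfl, Finset.mul_sum]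
  refine Finset.sum_congr rfl fun b _ => ?_
  ring

end Crest.Agent.R339.B
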