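import Crest.Agent.R339.B.Limit
import Crest.Agent.R339.B.Energy

/-! # Row 339, part B: the large `n` limit of the alternating state at fixed angles -/

set_option autoImplicit false

namespace Crest.Agent.R339

open MeasureTheory ProbabilityTheory Filter Topology Crest.MathPhysics.SpinGlass B

theorem partB : PartBStmt := by
  intro p γ β G hG
  have hB : ∀ k : Fin p, nuS γ β G (gB k) = G k.castSucc (Fin.last p) := fun k =>
    nuS_bra_ket hG _ _
  have hK : ∀ k : Fin p, nuS γ β G (gK k) = G (Fin.last p) k.castSucc := fun k =>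
    nuS_ket_ket hG _ _ (Fin.le_last _)
  have h1 : ∀ k : Fin p, Tendsto (fun n : ℕ => (γ k : ℂ) *
      (mm γ β n (1 / (n : ℝ)) (fun a => nu (1 / (n : ℝ)) (gB k) a ^ 2)
        - mm γ β n (1 / (n : ℝ)) (fun a => nu (1 / (n : ℝ)) (gK k) a ^ 2))) atTop
      (𝓝 ((γ k : ℂ) * (nuS γ β G (gB k) ^ 2 - nuS γ β G (gK k) ^ 2))) := fun k =>
    (((sq_lim hG (gB k)).comp adm_diag).sub ((sq_lim hG (gK k)).comp adm_diag)).const_mul _
  have h2 := (tendsto_finsetSum Finset.univ fun k _ => h1 k).const_mul (Complex.I / 2)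
  have h3 : Complex.I / 2 * ∑ k : Fin p, (γ k : ℂ) * (nuS γ β G (gB k) ^ 2 - nuS γ β G (gK k) ^ 2)
      = ((limE γ G : ℝ) : ℂ) := by
    rw [limE, Complex.ofReal_sum, Finset.mul_sum]
    refine Finset.sum_congr rfl fun k _ => ?_
    rw [hB, hK, hG.2.1 (Fin.last p) k.castSucc, ← map_pow]
    generalize G (Fin.last p) k.castSucc ^ 2 = z
    apply Complex.ext <;> simp <;> ring
  rw [h3] at h2
  simp only [← energy_eq] at h2
  exact (Complex.continuous_re.tendsto _).comp h2

end Crest.Agent.R339
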