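import Crest.Agent.R339.B.Defs

/-! # Row 339, part B: the mixer is an isometry -/

set_option autoImplicit false

namespace Crest.Agent.R339.B

open MeasureTheory ProbabilityTheory Filter Topology Crest.MathPhysics.SpinGlass

variable {p : ℕ}

/-- one-qubit mixer entry -/
noncomputable def mix (β : ℝ) (x y : Bool) : ℂ :=
  if x = y then ((Real.cos β : ℝ) : ℂ) else -(Complex.I * ((Real.sin β : ℝ) : ℂ))

/-- one-qubit unitarity.  Plan: `Fintype.sum_bool`, `cases y <;> cases y'`, `simp [mix]`,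
`cos² + sin² = 1` (`Complex.cos_sq_add_sin_sq`), `I * I = -1`. -/
theorem mix_unitary (β : ℝ) (y y' : Bool) :
    ∑ x : Bool, (starRingEnd ℂ) (mix β x y') * mix β x y = if y' = y then 1 else 0 := by
  have h : ((Real.cos β : ℝ) : ℂ) ^ 2 + ((Real.sin β : ℝ) : ℂ) ^ 2 = 1 := by
    exact_mod_cast Real.cos_sq_add_sin_sq β
  have hI := Complex.I_mul_I
  rw [Fintype.sum_bool]
  cases y <;> cases y' <;>
    simp only [mix, if_true, Bool.true_eq_false, Bool.false_eq_true, if_false, map_neg, map_mul,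
      Complex.conj_I, Complex.conj_ofReal]
  · linear_combination h - ((Real.sin β : ℝ) : ℂ) ^ 2 * hI
  · ring
  · ring
  · linear_combination h - ((Real.sin β : ℝ) : ℂ) ^ 2 * hI

/-- `n`-qubit unitarity of the kernel.  Plan: `map_prod`, `← Finset.prod_mul_distrib`,
`Finset.prod_univ_sum` / `Fintype.piFinset_univ`, `mix_unitary`, product of indicators. -/
theorem mixer_kernel (n : ℕ) (β : ℝ) (τ τ' : Fin n → Bool) :
    ∑ σ : Fin n → Bool, (starRingEnd ℂ) (∏ j, mix β (σ j) (τ' j)) * ∏ j, mix β (σ j) (τ j)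
      = if τ' = τ then 1 else 0 := by
  simp only [map_prod, ← Finset.prod_mul_distrib]
  have := Finset.prod_univ_sum (fun _ : Fin n => (Finset.univ : Finset Bool))
    (fun j x => (starRingEnd ℂ) (mix β x (τ' j)) * mix β x (τ j))
  rw [Fintype.piFinset_univ] at this
  rw [← this]
  simp only [mix_unitary, Finset.prod_boole, Finset.mem_univ, true_imp_iff, funext_iff]

/-- the mixer rotation preserves inner products
(`mixerRotation n β ψ σ = ∑ τ, (∏ j, mix β (σ j) (τ j)) * ψ τ` by `rfl`) -/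
theorem mixer_inner (n : ℕ) (β : ℝ) (ψ' ψ : (Fin n → Bool) → ℂ) :
    ∑ σ, (starRingEnd ℂ) (mixerRotation n β ψ' σ) * mixerRotation n β ψ σ
      = ∑ σ, (starRingEnd ℂ) (ψ' σ) * ψ σ := by
  have h : ∀ (φ : (Fin n → Bool) → ℂ) σ,
      mixerRotation n β φ σ = ∑ τ, (∏ j, mix β (σ j) (τ j)) * φ τ := fun _ _ => rfl
  calc _ = ∑ σ : Fin n → Bool, ∑ τ' : Fin n → Bool, ∑ τ : Fin n → Bool,
        ((starRingEnd ℂ) (ψ' τ') * ψ τ) *
          ((starRingEnd ℂ) (∏ j, mix β (σ j) (τ' j)) * ∏ j, mix β (σ j) (τ j)) := by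
        refine Finset.sum_congr rfl fun σ _ => ?_
        rw [h, h, map_sum, Finset.sum_mul_sum]
        refine Finset.sum_congr rfl fun τ' _ => Finset.sum_congr rfl fun τ _ => ?_
        rw [map_mul]
        ring
    _ = ∑ τ' : Fin n → Bool, ∑ τ : Fin n → Bool,
        ((starRingEnd ℂ) (ψ' τ') * ψ τ) * if τ' = τ then 1 else 0 := by
        rw [Finset.sum_comm]
        refine Finset.sum_congr rfl fun τ' _ => ?_
        rw [Finset.sum_comm]
        refine Finset.sum_congr rfl fun τ _ => ?_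
        rw [← Finset.mul_sum, mixer_kernel]
    _ = _ := by simp

/-- the mixer rotation preserves the norm (`Complex.conj_mul'`, `exact_mod_cast`) -/
theorem mixer_norm (n : ℕ) (β : ℝ) (ψ : (Fin n → Bool) → ℂ) :
    ∑ σ, ‖mixerRotation n β ψ σ‖ ^ 2 = ∑ σ, ‖ψ σ‖ ^ 2 := by
  have := mixer_inner n β ψ ψ
  simp only [Complex.conj_mul'] at this
  exact_mod_cast this

end Crest.Agent.R339.B
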