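import Crest.Agent.R339.B.Mixer

/-! # Row 339, part B: path expansion of the alternating state -/

set_option autoImplicit false

namespace Crest.Agent.R339.B

open MeasureTheory ProbabilityTheory Filter Topology Crest.MathPhysics.SpinGlass

variable {p : ℕ}

/-- depth `0`.  Plan: `Fin 1 → X ≃ X` (`Equiv.funUnique`), `amp` over `Fin 0` is `1/√2`. -/
theorem pathState_zero {N : ℕ} (β : Fin 0 → ℝ) (D : Fin (0 + 1) → (Fin N → Bool) → ℂ)
    (σ : Fin N → Bool) : pathState β D σ = D 0 σ * plusState N σ := by
  unfold pathState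
  rw [Finset.sum_eq_single (fun _ => σ)]
  · simp [amp, plusState, mul_comm]
  · intro w _ hw
    refine if_neg fun h => hw ?_
    funext k
    rw [← h]
    congr 1
    exact Subsingleton.elim (α := Fin 1) _ _
  · simp

/-- `amp` along a path extended by one step -/
theorem amp_snoc (β : Fin (p + 1) → ℝ) (a : Fin (p + 1) → Bool) (x : Bool) :
    amp β (Fin.snoc (α := fun _ => Bool) a x)
      = amp (Fin.init β) a * mix (β (Fin.last p)) x (a (Fin.last p)) := by
  unfold amp mix
  rw [Fin.prod_univ_castSucc, mul_assoc]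
  congr 2
  · refine Finset.prod_congr rfl fun k _ => ?_
    rw [Fin.succ_castSucc, Fin.snoc_castSucc, Fin.snoc_castSucc]
    rfl
  · rw [Fin.succ_last, Fin.snoc_last, Fin.snoc_castSucc]

/-- recursion.  Plan: reindex the sum over `w : Fin (p+2) → X` by `Fin.snocEquiv` (or
`Fin.insertNthEquiv`/`Fin.consEquiv` analogue: `w = Fin.snoc w' x`), `Fintype.sum_prod_type`,
`Fin.prod_univ_castSucc`, `amp_snoc`; on the right expand `mixerRotation`, swap the sums
(`Finset.sum_comm`) and use `Finset.sum_ite_eq`. -/
theorem pathState_succ {N : ℕ} (β : Fin (p + 1) → ℝ) (D : Fin (p + 1 + 1) → (Fin N → Bool) → ℂ)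
    (σ : Fin N → Bool) :
    pathState β D σ = D (Fin.last (p + 1)) σ *
      mixerRotation N (β (Fin.last p)) (pathState (Fin.init β) (Fin.init D)) σ := by
  have e1 : pathState β D σ = ∑ w : Fin (p + 1) → Fin N → Bool,
      (∏ i, amp (Fin.init β) (fun k => w k i) *
        mix (β (Fin.last p)) (σ i) (w (Fin.last p) i)) *
        ((∏ k, Fin.init D k (w k)) * D (Fin.last (p + 1)) σ) := by
    unfold pathState
    rw [← (Fin.snocEquiv fun _ : Fin (p + 1 + 1) => Fin N → Bool).sum_comp, Fintype.sum_prod_type,
      Finset.sum_eq_single σ]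
    · refine Finset.sum_congr rfl fun w _ => ?_
      have h : ∀ i, (fun k => (Fin.snocEquiv fun _ : Fin (p + 1 + 1) => Fin N → Bool) (σ, w) k i) =
          Fin.snoc (α := fun _ => Bool) (fun k => w k i) (σ i) := fun i => by
        funext k
        refine Fin.lastCases ?_ (fun j => ?_) k <;> simp [Fin.snocEquiv]
      simp only [h, amp_snoc]
      rw [if_pos (by simp [Fin.snocEquiv]), Fin.prod_univ_castSucc]
      simp [Fin.snocEquiv, Fin.init]
    · intro x _ hx
      refine Finset.sum_eq_zero fun w _ => if_neg ?_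
      simpa [Fin.snocEquiv] using hx
    · simp
  rw [e1]
  change _ = _ * ∑ τ, (∏ j, mix (β (Fin.last p)) (σ j) (τ j)) *
    pathState (Fin.init β) (Fin.init D) τ
  unfold pathState
  simp only [Finset.mul_sum]
  rw [Finset.sum_comm]
  refine Finset.sum_congr rfl fun w _ => ?_
  rw [Finset.sum_eq_single (w (Fin.last p))]
  · rw [if_pos rfl, Finset.prod_mul_distrib]
    ring
  · intro τ _ hτ
    rw [if_neg (Ne.symm hτ)]
    simp
  · simp

theorem PathState_plus (N : ℕ) : ∑ σ, ‖plusState N σ‖ ^ 2 = 1 := by
  have h : ∀ σ, ‖plusState N σ‖ ^ 2 = (1 / 2) ^ N := fun σ => by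
    rw [plusState, norm_pow, ← pow_mul, mul_comm, pow_mul, Complex.norm_real, Real.norm_eq_abs,
      sq_abs, div_pow, Real.sq_sqrt (by norm_num), one_pow]
  simp [h]

/-- contractions give a vector of norm at most one (induction on `p`, `mixer_norm`) -/
theorem pathState_norm_le {N : ℕ} (β : Fin p → ℝ) (D : Fin (p + 1) → (Fin N → Bool) → ℂ)
    (hD : ∀ k σ, ‖D k σ‖ ≤ 1) : ∑ σ, ‖pathState β D σ‖ ^ 2 ≤ 1 := by
  induction p with
  | zero =>
    rw [← PathState_plus N]
    refine Finset.sum_le_sum fun σ _ => ?_
    rw [pathState_zero, norm_mul]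
    exact pow_le_pow_left₀ (by positivity)
      (mul_le_of_le_one_left (norm_nonneg _) (hD _ _)) 2
  | succ p ih =>
    refine le_trans ?_ (ih (Fin.init β) (Fin.init D) fun k σ => hD _ _)
    rw [← mixer_norm N (β (Fin.last p)) (pathState (Fin.init β) (Fin.init D))]
    refine Finset.sum_le_sum fun σ _ => ?_
    rw [pathState_succ, norm_mul]
    exact pow_le_pow_left₀ (by positivity)
      (mul_le_of_le_one_left (norm_nonneg _) (hD _ _)) 2

/-- diagonal unitaries give a unit vector -/
theorem pathState_norm_eq {N : ℕ} (β : Fin p → ℝ) (D : Fin (p + 1) → (Fin N → Bool) → ℂ)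
    (hD : ∀ k σ, ‖D k σ‖ = 1) : ∑ σ, ‖pathState β D σ‖ ^ 2 = 1 := by
  induction p with
  | zero =>
    rw [← PathState_plus N]
    refine Finset.sum_congr rfl fun σ _ => ?_
    rw [pathState_zero, norm_mul, hD, one_mul]
  | succ p ih =>
    rw [← ih (Fin.init β) (Fin.init D) fun k σ => hD _ _,
      ← mixer_norm N (β (Fin.last p)) (pathState (Fin.init β) (Fin.init D))]
    refine Finset.sum_congr rfl fun σ _ => ?_
    rw [pathState_succ, norm_mul, hD, one_mul]

theorem PathState_last {N : ℕ} (β : Fin p → ℝ) (D D' : Fin (p + 1) → (Fin N → Bool) → ℂ)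
    (c : (Fin N → Bool) → ℂ) (h : ∀ k : Fin p, D k.castSucc = D' k.castSucc)
    (h' : ∀ σ, D (Fin.last p) σ = c σ * D' (Fin.last p) σ) (σ : Fin N → Bool) :
    pathState β D σ = c σ * pathState β D' σ := by
  unfold pathState
  rw [Finset.mul_sum]
  refine Finset.sum_congr rfl fun w _ => ?_
  split_ifs with hw
  · rw [Fin.prod_univ_castSucc, Fin.prod_univ_castSucc, h', hw]
    simp only [h]
    ring
  · simp

/-- the alternating state is a path sum.  Plan: induction on `p` with `List.ofFn_succ_last`
(or `List.ofFn_succ'`), `List.foldl_append`/`List.foldl_concat`, `pathState_succ`.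
It is convenient to prove first, for all `D : Fin (p+1) → _`, that
`pathState β D σ = D (last) σ * pathState β (Function.update D (last) 1) σ`
(multiplying the last operator), so that `Fin.init (costD γ H)` at depth `p+1` differs from
`costD (Fin.init γ) H` only in the last slot, by the factor `exp (-(I * γ (last) * H σ))`. -/
theorem alt_eq (n : ℕ) (J : Fin n → Fin n → ℝ) (γ β : Fin p → ℝ) :
    alternatingState n J (List.ofFn fun k => (γ k, β k))
      = pathState β (costD γ (pairEnergy n J)) := by
  induction p with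
  | zero =>
    funext σ
    rw [pathState_zero]
    have : gam γ 0 = 0 := gam_last γ
    simp [alternatingState, costD, this]
  | succ p ih =>
    funext σ
    have e : alternatingState n J (List.ofFn fun k => (γ k, β k)) =
        mixerRotation n (β (Fin.last p)) (costRotation n J (γ (Fin.last p))
          (alternatingState n J (List.ofFn fun k => (Fin.init γ k, Fin.init β k)))) := by
      unfold alternatingState
      rw [List.ofFn_succ_last, List.foldl_append]
      rfl
    rw [e, ih, pathState_succ]
    have h1 : costD γ (pairEnergy n J) (Fin.last (p + 1)) σ = 1 := by simp [costD]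
    rw [h1, one_mul]
    congr 1
    funext τ
    refine (PathState_last (Fin.init β) _ _ (fun σ => Complex.exp
      (-(Complex.I * (γ (Fin.last p) : ℂ) * (pairEnergy n J σ : ℂ)))) (fun k => ?_) (fun τ => ?_)
      τ).symm
    · funext x
      simp [costD, Fin.init]
    · simp [costD, Fin.init]

end Crest.Agent.R339.B
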