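import Crest.Agent.R339.B.PathState
import Crest.Agent.R339.B.Inner
import Crest.Agent.R339.B.Gauss

/-! # Row 339, part B: the path-sum functional as a Gaussian average of matrix elements -/

set_option autoImplicit false

namespace Crest.Agent.R339.B

open MeasureTheory ProbabilityTheory Filter Topology Crest.MathPhysics.SpinGlass

variable {p : ℕ}

theorem pairEnergy_eq (n : ℕ) (J : Fin n → Fin n → ℝ) :
    pairEnergy n J = Hen n (1 / (n : ℝ)) J := by
  funext σ
  simp only [pairEnergy, Hen, one_div, Real.sqrt_inv]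

/-- Plan: `← Complex.exp_conj`, `← Complex.exp_sum`, `← Complex.exp_add`, `Fin.sum_univ_castSucc`
(the last time has `gam = 0`), then `Finset.sum_comm`, `Finset.mul_sum`, `split_ifs`, `ring`. -/
theorem phase_eq {N : ℕ} (γ : Fin p → ℝ) (ε : ℝ) (J : Fin N → Fin N → ℝ) (a : Fin N → Pth p) :
    phase γ (Hen N ε J) a
      = Complex.exp (Complex.I * ((∑ i, ∑ j, J i j * tt γ ε a i j : ℝ) : ℂ)) := by
  have key : ∑ k : Fin p, γ k * (Hen N ε J (fun i => (a i).1 k.castSucc) -
      Hen N ε J (fun i => (a i).2 k.castSucc)) = ∑ i, ∑ j, J i j * tt γ ε a i j := by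
    simp only [Hen, tt, ← mul_sub, ← Finset.sum_sub_distrib, Finset.mul_sum]
    rw [Finset.sum_comm]
    refine Finset.sum_congr rfl fun i _ => ?_
    rw [Finset.sum_comm]
    refine Finset.sum_congr rfl fun j _ => ?_
    split_ifs
    · rw [Finset.mul_sum]
      exact Finset.sum_congr rfl fun k _ => by ring
    · simp
  rw [← key]
  simp only [phase, costD, ← Complex.exp_conj, ← Complex.exp_sum, ← Complex.exp_add]
  congr 1
  simp only [Fin.sum_univ_castSucc, gam_castSucc, gam_last, map_neg, map_mul, Complex.conj_I,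
    Complex.conj_ofReal]
  push_cast
  simp only [mul_zero, zero_mul, neg_zero, add_zero, Finset.mul_sum, ← Finset.sum_add_distrib]
  exact Finset.sum_congr rfl fun k _ => by ring

theorem lam_symm (γ : Fin p → ℝ) (a b : Pth p) : lam γ a b = lam γ b a := by
  unfold lam
  congr 3
  refine Finset.sum_congr rfl fun k _ => ?_
  unfold xk
  ring

theorem lam_self (γ : Fin p → ℝ) (a : Pth p) : lam γ a a = 0 := by
  simp [lam, xk, sg_mul_self]

/-- for a symmetric `F`: `∑ i j, F i j = 2 ∑_{i<j} F i j + ∑ i, F i i` -/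
theorem sum_sym {N : ℕ} (F : Fin N → Fin N → ℂ) (hF : ∀ i j, F i j = F j i) :
    ∑ i, ∑ j, F i j = 2 * (∑ i, ∑ j, if i < j then F i j else 0) + ∑ i, F i i := by
  have h1 : ∀ i j, F i j = (if i < j then F i j else 0) + (if j < i then F j i else 0) +
      if i = j then F i i else 0 := by
    intro i j
    rcases lt_trichotomy i j with h | h | h
    · simp [h, h.ne, h.not_gt]
    · simp [h]
    · simp [h, h.ne', h.not_gt, hF i j]
  have h2 : ∑ i, ∑ j, (if j < i then F j i else 0) = ∑ i, ∑ j, if i < j then F i j else 0 :=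
    Finset.sum_comm
  rw [Finset.sum_congr rfl fun i _ => Finset.sum_congr rfl fun j _ => h1 i j]
  simp only [Finset.sum_add_distrib, h2, Finset.sum_ite_eq, Finset.mem_univ, if_true]
  ring

/-- Plan: `sum_sym`, `lam_symm`, `lam_self`, `Real.sq_sqrt`, `sg b = (spinSign b : ℂ)`. -/
theorem tt_sq {N : ℕ} (γ : Fin p → ℝ) {ε : ℝ} (hε : 0 ≤ ε) (a : Fin N → Pth p) :
    -((∑ i, ∑ j, tt γ ε a i j ^ 2 : ℝ) : ℂ) / 2
      = (ε : ℂ) / 2 * ∑ i, ∑ j, lam γ (a i) (a j) := by
  rw [sum_sym _ fun i j => lam_symm γ (a i) (a j)]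
  simp only [lam_self, Finset.sum_const_zero, add_zero]
  have key : ∀ i j, ((tt γ ε a i j ^ 2 : ℝ) : ℂ) =
      -2 * (ε : ℂ) * if i < j then lam γ (a i) (a j) else 0 := by
    intro i j
    unfold tt
    split_ifs
    · rw [mul_pow, Real.sq_sqrt hε]
      simp only [lam, xk, sg]
      push_cast
      ring
    · simp
  rw [Complex.ofReal_sum]
  simp only [Complex.ofReal_sum, key, ← Finset.mul_sum]
  ring

/-- Plan: `integral_finset_sum`, `integral_const_mul`/`integral_mul_const`, `phase_eq`,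
`integral_exp_lin`, `tt_sq`. -/
theorem mm_eq_integral (γ β : Fin p → ℝ) (N : ℕ) {ε : ℝ} (hε : 0 ≤ ε)
    (Φ : (Fin N → Pth p) → ℂ) :
    mm γ β N ε Φ = ∫ J, ∑ a : Fin N → Pth p,
      (∏ i, wt β (a i)) * phase γ (Hen N ε J) a * Φ a ∂(gaussianCouplings N) := by
  simp only [phase_eq]
  rw [integral_finsetSum _ fun a _ =>
    ((integrable_exp_lin N (tt γ ε a)).const_mul _).mul_const _]
  refine Finset.sum_congr rfl fun a _ => ?_
  rw [integral_mul_const, integral_const_mul, integral_exp_lin, tt_sq γ hε]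

theorem repr_norm_costD {N : ℕ} (γ : Fin p → ℝ) (H : (Fin N → Bool) → ℝ) (k : Fin (p + 1))
    (σ : Fin N → Bool) : ‖costD γ H k σ‖ = 1 := by
  simp [costD, Complex.norm_exp]

theorem repr_inner {N : ℕ} (γ β : Fin p → ℝ) (H : (Fin N → Bool) → ℝ)
    (D' D : Fin (p + 1) → (Fin N → Bool) → ℂ) :
    ∑ a : Fin N → Pth p, (∏ i, wt β (a i)) * phase γ H a *
      ((∏ k, D' k fun i => (a i).1 k) * ∏ k, D k fun i => (a i).2 k) =
    ∑ σ, (starRingEnd ℂ) (pathState β (fun k σ => costD γ H k σ * (starRingEnd ℂ) (D' k σ)) σ) * 1 *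
      pathState β (fun k σ => costD γ H k σ * D k σ) σ := by
  rw [inner_pathState β _ _ fun _ => 1]
  refine Finset.sum_congr rfl fun a _ => ?_
  simp only [phase, map_mul, Complex.conj_conj, Finset.prod_mul_distrib]
  ring

/-- Plan: for every `J` the integrand of `mm_eq_integral` is
`∑ σ, conj (pathState β E' σ) * 1 * pathState β E σ` (`inner_pathState`) with
`E' k σ = costD .. k σ * conj (D' k σ)`, `E k σ = costD .. k σ * D k σ`, both of norm `≤ 1`;
`‖conj x * y‖ ≤ (‖x‖² + ‖y‖²)/2` and `pathState_norm_le` bound it by `1`;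
`norm_integral_le_of_norm_le_const`. -/
theorem mm_prod_bound (γ β : Fin p → ℝ) (N : ℕ) {ε : ℝ} (hε : 0 ≤ ε)
    (D' D : Fin (p + 1) → (Fin N → Bool) → ℂ) (h' : ∀ k σ, ‖D' k σ‖ ≤ 1)
    (h : ∀ k σ, ‖D k σ‖ ≤ 1) :
    ‖mm γ β N ε fun a => (∏ k, D' k fun i => (a i).1 k) * ∏ k, D k fun i => (a i).2 k‖ ≤ 1 := by
  rw [mm_eq_integral γ β N hε]
  have := norm_integral_le_of_norm_le_const (μ := gaussianCouplings N) (C := 1)
    (f := fun J => ∑ a : Fin N → Pth p, (∏ i, wt β (a i)) * phase γ (Hen N ε J) a *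
      ((∏ k, D' k fun i => (a i).1 k) * ∏ k, D k fun i => (a i).2 k))
    (Eventually.of_forall fun J => ?_)
  · simpa using this
  rw [repr_inner]
  have h1 := pathState_norm_le β (fun k σ => costD γ (Hen N ε J) k σ * (starRingEnd ℂ) (D' k σ))
    fun k σ => by rw [norm_mul, repr_norm_costD, one_mul, Complex.norm_conj]; exact h' k σ
  have h2 := pathState_norm_le β (fun k σ => costD γ (Hen N ε J) k σ * D k σ)
    fun k σ => by rw [norm_mul, repr_norm_costD, one_mul]; exact h k σ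
  refine (norm_sum_le _ _).trans ?_
  refine le_trans (Finset.sum_le_sum (g := fun σ =>
    (‖pathState β (fun k σ => costD γ (Hen N ε J) k σ * (starRingEnd ℂ) (D' k σ)) σ‖ ^ 2 +
      ‖pathState β (fun k σ => costD γ (Hen N ε J) k σ * D k σ) σ‖ ^ 2) / 2) fun σ _ => ?_) ?_
  · rw [mul_one, norm_mul, Complex.norm_conj]
    nlinarith [sq_nonneg (‖pathState β (fun k σ => costD γ (Hen N ε J) k σ *
      (starRingEnd ℂ) (D' k σ)) σ‖ - ‖pathState β (fun k σ => costD γ (Hen N ε J) k σ * D k σ) σ‖)]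
  · rw [← Finset.sum_div, Finset.sum_add_distrib]
    linarith

/-- Plan: as above with `pathState_norm_eq` (`Complex.conj_mul'`). -/
theorem mm_one (γ β : Fin p → ℝ) (N : ℕ) {ε : ℝ} (hε : 0 ≤ ε) :
    mm γ β N ε (fun _ => 1) = 1 := by
  rw [mm_eq_integral γ β N hε]
  have key : ∀ J : Fin N → Fin N → ℝ, ∑ a : Fin N → Pth p,
      (∏ i, wt β (a i)) * phase γ (Hen N ε J) a * 1 = 1 := by
    intro J
    have h1 := repr_inner γ β (Hen N ε J) (fun _ _ => 1) (fun _ _ => 1)
    have h2 := pathState_norm_eq β (costD γ (Hen N ε J)) (repr_norm_costD γ _)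
    simp only [Finset.prod_const_one, mul_one, map_one, Complex.conj_mul'] at h1 ⊢
    rw [h1]
    exact_mod_cast h2
  simp only [key]
  simp

end Crest.Agent.R339.B
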